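import Vale.Agent.P160R.RM.Defs
import Vale.Agent.P160R.RM.Cube.Interp

/-!
P160, reverse Minkowski: the degree-one projection on the cube is bounded up to polylogarithmic factors.
-/

namespace Vale.Agent.P160R.RM

open Finset
open scoped RealInnerProductSpace

variable {ι : Type} [Fintype ι] [DecidableEq ι] {E : Type*} [NormedAddCommGroup E]
  [InnerProductSpace ℝ E]

/-- The degree-one coefficient of a function on the cube. -/
noncomputable def coef (y : (ι → Bool) → E) (i : ι) : E :=
  ((2 : ℝ) ^ Fintype.card ι)⁻¹ • ∑ e, sg (e i) • y e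

/-- A character of the cube. -/
def chr (S : Finset ι) (e : ι → Bool) : ℝ := ∏ i ∈ S, sg (e i)

/-- A Fourier coefficient on the cube. -/
noncomputable def fcoef (y : (ι → Bool) → E) (S : Finset ι) : E :=
  ((2 : ℝ) ^ Fintype.card ι)⁻¹ • ∑ e, chr S e • y e

/-- The product of two points of the cube. -/
def tw (e h : ι → Bool) : ι → Bool := fun i => e i == h i

omit [Fintype ι] [DecidableEq ι] in
theorem sg_tw (e h : ι → Bool) (i : ι) : sg (tw e h i) = sg (e i) * sg (h i) := by
  unfold tw sg; cases e i <;> cases h i <;> simp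

omit [Fintype ι] [DecidableEq ι] in
theorem tw_tw (e h : ι → Bool) : tw e (tw e h) = h := by
  funext i; unfold tw; cases e i <;> cases h i <;> rfl

theorem sum_tw {F : Type*} [AddCommMonoid F] (e : ι → Bool) (f : (ι → Bool) → F) :
    ∑ h, f (tw e h) = ∑ h, f h :=
  Equiv.sum_comp ⟨tw e, tw e, tw_tw e, tw_tw e⟩ f

omit [Fintype ι] [DecidableEq ι] in
theorem chr_tw (S : Finset ι) (e h : ι → Bool) : chr S (tw e h) = chr S e * chr S h := by
  simp only [chr, sg_tw, prod_mul_distrib]

omit [DecidableEq ι] in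
theorem prod_expand (t : ι → ℝ) (h : ι → Bool) :
    ∏ i, (1 + t i * sg (h i)) = ∑ S : Finset ι, (∏ i ∈ S, t i) * chr S h := by
  rw [prod_one_add, powerset_univ]
  simp only [prod_mul_distrib, chr]

theorem chr_orth (S T : Finset ι) :
    ∑ e : ι → Bool, chr S e * chr T e = if S = T then (2 : ℝ) ^ Fintype.card ι else 0 := by
  set f : ι → Bool → ℝ := fun i b => (if i ∈ S then sg b else 1) * if i ∈ T then sg b else 1
  have h : ∀ e : ι → Bool, chr S e * chr T e = ∏ i, f i (e i) := fun e => by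
    simp only [chr, f, prod_mul_distrib, prod_ite_mem, univ_inter]
  rw [sum_congr rfl fun e _ => h e, ← Fintype.prod_sum f]
  split_ifs with hST
  · subst hST
    rw [prod_eq_pow_card (b := (2 : ℝ)) fun i _ => ?_, card_univ]
    rw [Fintype.sum_bool]; simp only [f, sg]; by_cases hi : i ∈ S <;> simp [hi] <;> norm_num
  · obtain ⟨i, hi⟩ : ∃ i, ¬ (i ∈ S ↔ i ∈ T) := by
      by_contra hc; push Not at hc; exact hST (Finset.ext hc)
    refine prod_eq_zero (mem_univ i) ?_
    rw [Fintype.sum_bool]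
    simp only [f, sg]
    by_cases hS : i ∈ S <;> by_cases hT : i ∈ T <;> simp_all

omit [DecidableEq ι] in
theorem chr_complete (e g : ι → Bool) :
    ∑ S : Finset ι, chr S e * chr S g = if e = g then (2 : ℝ) ^ Fintype.card ι else 0 := by
  have h := prod_expand (fun i => sg (e i)) g
  refine Eq.trans h.symm ?_
  split_ifs with heg
  · subst heg
    rw [prod_eq_pow_card (b := (2 : ℝ)) fun i _ => ?_, card_univ]
    cases e i <;> simp [sg] <;> norm_num
  · obtain ⟨i, hi⟩ := Function.ne_iff.1 heg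
    refine prod_eq_zero (mem_univ i) ?_
    revert hi
    cases e i <;> cases g i <;> simp [sg]

/-- A combination of characters with coefficients bounded by `B`. -/
theorem parseval_le (b : Finset ι → ℝ) {B R : ℝ} (hb : ∀ S, |b S| ≤ B) (y : (ι → Bool) → E)
    (hR : ∀ e, ‖y e‖ ≤ R) :
    ∑ e, ‖∑ S : Finset ι, (b S * chr S e) • fcoef y S‖ ^ 2 ≤
      (2 : ℝ) ^ Fintype.card ι * (B ^ 2 * R ^ 2) := by
  set D : ℝ := (2 : ℝ) ^ Fintype.card ι with hD
  have hD0 : 0 < D := by positivity
  have h1 : ∑ e, ‖∑ S : Finset ι, (b S * chr S e) • fcoef y S‖ ^ 2 =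
      D * ∑ S, b S ^ 2 * ‖fcoef y S‖ ^ 2 := by
    calc ∑ e, ‖∑ S : Finset ι, (b S * chr S e) • fcoef y S‖ ^ 2
        = ∑ e, ∑ S, ∑ T, (chr S e * chr T e) * (b S * (b T * ⟪fcoef y S, fcoef y T⟫)) := by
          refine sum_congr rfl fun e _ => ?_
          rw [← real_inner_self_eq_norm_sq]
          simp only [sum_inner, inner_sum, real_inner_smul_left, real_inner_smul_right]
          rw [sum_comm]
          exact sum_congr rfl fun S _ => sum_congr rfl fun T _ => by ring
      _ = ∑ S, ∑ T, (∑ e, chr S e * chr T e) * (b S * (b T * ⟪fcoef y S, fcoef y T⟫)) := by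
          rw [sum_comm]
          refine sum_congr rfl fun S _ => ?_
          rw [sum_comm]
          exact sum_congr rfl fun T _ => by rw [sum_mul]
      _ = _ := by
          simp only [chr_orth, ite_mul, zero_mul, sum_ite_eq, mem_univ, if_true, mul_sum,
            real_inner_self_eq_norm_sq]
          exact sum_congr rfl fun S _ => by ring
  have h2 : ∑ S, ‖fcoef y S‖ ^ 2 = D⁻¹ * ∑ e, ‖y e‖ ^ 2 := by
    calc ∑ S, ‖fcoef y S‖ ^ 2
        = ∑ S : Finset ι, D⁻¹ * D⁻¹ * ∑ e, ∑ g, (chr S e * chr S g) * ⟪y e, y g⟫ := by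
          refine sum_congr rfl fun S _ => ?_
          rw [← real_inner_self_eq_norm_sq, fcoef, ← hD]
          simp only [sum_inner, inner_sum, real_inner_smul_left, real_inner_smul_right, mul_sum]
          rw [sum_comm]
          exact sum_congr rfl fun e _ => sum_congr rfl fun g _ => by ring
      _ = D⁻¹ * D⁻¹ * ∑ e, ∑ g, (∑ S : Finset ι, chr S e * chr S g) * ⟪y e, y g⟫ := by
          rw [← mul_sum, sum_comm]
          congr 1
          refine sum_congr rfl fun e _ => ?_
          rw [sum_comm]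
          exact sum_congr rfl fun g _ => by rw [sum_mul]
      _ = _ := by
          simp only [chr_complete, ite_mul, zero_mul, sum_ite_eq, mem_univ, if_true,
            real_inner_self_eq_norm_sq, ← mul_sum, ← hD]
          field_simp
  rw [h1]
  refine mul_le_mul_of_nonneg_left ?_ hD0.le
  calc ∑ S, b S ^ 2 * ‖fcoef y S‖ ^ 2 ≤ ∑ S, B ^ 2 * ‖fcoef y S‖ ^ 2 :=
        sum_le_sum fun S _ => mul_le_mul_of_nonneg_right
          (sq_le_sq' (neg_le_of_abs_le (hb S)) (le_of_abs_le (hb S))) (sq_nonneg _)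
    _ ≤ B ^ 2 * R ^ 2 := by
        rw [← mul_sum, h2]
        refine mul_le_mul_of_nonneg_left ?_ (sq_nonneg B)
        rw [inv_mul_le_iff₀ hD0]
        refine (sum_le_card_nsmul _ _ (R ^ 2) fun e _ =>
          pow_le_pow_left₀ (norm_nonneg _) (hR e) 2).trans (le_of_eq ?_)
        rw [nsmul_eq_mul, card_univ]; simp [hD]

/-- The weight of a point in the noise operator with parameters `t`. -/
noncomputable def wt (t : ι → ℝ) (h : ι → Bool) : ℝ := ∏ i, (1 + t i * sg (h i)) / 2

omit [DecidableEq ι] in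
theorem wt_eq (t : ι → ℝ) (h : ι → Bool) :
    wt t h = ((2 : ℝ) ^ Fintype.card ι)⁻¹ * ∑ S : Finset ι, (∏ i ∈ S, t i) * chr S h := by
  rw [← prod_expand, wt, prod_div_distrib, prod_const, card_univ, inv_mul_eq_div]

omit [DecidableEq ι] in
theorem wt_nonneg {t : ι → ℝ} (ht : ∀ i, |t i| ≤ 1) (h : ι → Bool) : 0 ≤ wt t h :=
  prod_nonneg fun i _ => div_nonneg (by
    have := abs_le.1 (ht i)
    cases h i <;> simp [sg] <;> linarith) two_pos.le

theorem wt_chr (t : ι → ℝ) (T : Finset ι) : ∑ h, wt t h * chr T h = ∏ i ∈ T, t i := by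
  simp only [wt_eq, mul_assoc, sum_mul, ← mul_sum]
  rw [sum_comm]
  simp only [← mul_sum, chr_orth, mul_ite, mul_zero, sum_ite_eq', mem_univ, if_true]
  field_simp

theorem wt_sum (t : ι → ℝ) : ∑ h, wt t h = 1 := by
  simpa [chr] using wt_chr t ∅

/-- A noise operator acts on characters as a multiplier. -/
theorem wt_expand (t : ι → ℝ) (y : (ι → Bool) → E) (e : ι → Bool) :
    ∑ h, wt t h • y (tw e h) = ∑ S : Finset ι, ((∏ i ∈ S, t i) * chr S e) • fcoef y S := by
  rw [← sum_tw e]
  simp only [tw_tw, wt_eq, mul_sum, sum_smul]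
  rw [sum_comm]
  refine sum_congr rfl fun S _ => ?_
  rw [fcoef, smul_smul, smul_sum]
  refine sum_congr rfl fun g _ => ?_
  rw [smul_smul, chr_tw]
  congr 1; ring

theorem fcoef_singleton (y : (ι → Bool) → E) (i : ι) : fcoef y {i} = coef y i := by
  simp [fcoef, coef, chr]

/-- A seminorm of a weighted average. -/
theorem seminorm_sum_le (N : Seminorm ℝ E) {β : Type*} (s : Finset β) (c : β → ℝ) (v : β → E)
    {b : ℝ} (hv : ∀ x ∈ s, N (v x) ≤ b) : N (∑ x ∈ s, c x • v x) ≤ (∑ x ∈ s, |c x|) * b := by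
  refine (le_sum_of_subadditive N (map_zero N).le (fun a b => map_add_le_add N a b) s _).trans ?_
  rw [sum_mul]
  refine sum_le_sum fun x hx => ?_
  rw [map_smul_eq_mul, Real.norm_eq_abs]
  exact mul_le_mul_of_nonneg_left (hv x hx) (abs_nonneg _)

/-- The degree-one part of a function with values in the unit ball of a seminorm. -/
theorem cube_projection (N : Seminorm ℝ E) {Φ R : ℝ} (hΦ : 0 ≤ Φ) (hN : ∀ x, N x ≤ Φ * ‖x‖)
    (y : (ι → Bool) → E) (hy : ∀ e, N (y e) ≤ 1) (hR : ∀ e, ‖y e‖ ≤ R) (n p : ℕ) (hn : 1 ≤ n)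
    (hp : 2 ≤ p) :
    (∑ e : ι → Bool, N (∑ i, sg (e i) • coef y i) ^ p) / (2 : ℝ) ^ Fintype.card ι ≤
      2 ^ p * ((4 * (n : ℝ) ^ 2) ^ p +
        (Φ * R * (4 * (n : ℝ) ^ 2 + Fintype.card ι + 1)) ^ p / 4 ^ n) := by
  obtain ⟨c, z, hz, hc, hcz⟩ := exists_interp n hn
  set K : ℝ := 4 * (n : ℝ) ^ 2
  have hK : 0 ≤ K := by positivity
  set D : ℝ := (2 : ℝ) ^ Fintype.card ι with hD
  have hD0 : 0 < D := by positivity
  have hR0 : 0 ≤ R := (norm_nonneg _).trans (hR fun _ => true)
  set Q : (ι → Bool) → E := fun e => ∑ j, c j • ∑ h, wt (fun _ : ι => z j) h • y (tw e h)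
  set P : (ι → Bool) → E := fun e => ∑ i, sg (e i) • coef y i
  have hwt : ∀ j h, 0 ≤ wt (fun _ : ι => z j) h := fun j h =>
    wt_nonneg (fun _ => (hz j).trans (by norm_num)) h
  have habs : ∀ j, ∑ h, |wt (fun _ : ι => z j) h| = 1 := fun j => by
    simp only [abs_of_nonneg (hwt j _), wt_sum]
  have hQN : ∀ e, N (Q e) ≤ K := fun e => by
    refine (seminorm_sum_le N univ c _ (b := 1) fun j _ => ?_).trans (by linarith)
    exact (seminorm_sum_le N univ _ _ fun h _ => hy _).trans (by rw [habs, one_mul])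
  have hQn : ∀ e, ‖Q e‖ ≤ K * R := fun e => by
    refine le_trans (seminorm_sum_le (normSeminorm ℝ E) univ c _ (b := R) fun j _ => ?_)
      (mul_le_mul_of_nonneg_right hc hR0)
    exact (seminorm_sum_le (normSeminorm ℝ E) univ _ _ fun h _ => hR _).trans
      (by rw [habs, one_mul])
  have hPn : ∀ e, ‖P e‖ ≤ Fintype.card ι * R := fun e => by
    refine le_trans (norm_sum_le _ _) ((sum_le_card_nsmul _ _ R fun i _ => ?_).trans_eq
      (by rw [card_univ, nsmul_eq_mul]))
    have hs : ‖sg (e i)‖ = 1 := by cases e i <;> simp [sg]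
    rw [norm_smul, hs, one_mul, coef, norm_smul, norm_inv, Real.norm_of_nonneg hD0.le,
      inv_mul_le_iff₀ hD0]
    refine (norm_sum_le _ _).trans ((sum_le_card_nsmul _ _ R fun g _ => ?_).trans_eq
      (by simp [hD]))
    have hs : ‖sg (g i)‖ = 1 := by cases g i <;> simp [sg]
    rw [norm_smul, hs, one_mul]; exact hR g
  -- the difference as a combination of characters
  set b : Finset ι → ℝ := fun S => (∑ j, c j * z j ^ S.card) - if S.card = 1 then 1 else 0
  have hdiff : ∀ e, Q e - P e = ∑ S : Finset ι, (b S * chr S e) • fcoef y S := fun e => by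
    have hP : P e = ∑ S : Finset ι, ((if S.card = 1 then (1 : ℝ) else 0) * chr S e) • fcoef y S := by
      simp only [ite_mul, one_mul, zero_mul, ite_smul, zero_smul, ← sum_filter]
      refine sum_bij (fun i _ => {i}) (fun i _ => by simp) (fun a _ b _ h => singleton_injective h)
        (fun S hS => ?_) fun i _ => by simp [chr, fcoef_singleton]
      obtain ⟨i, rfl⟩ := card_eq_one.1 (mem_filter.1 hS).2
      exact ⟨i, mem_univ i, rfl⟩
    have hQ : Q e = ∑ S : Finset ι, ((∑ j, c j * z j ^ S.card) * chr S e) • fcoef y S := by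
      simp only [Q, wt_expand, prod_const, smul_sum, smul_smul]
      rw [sum_comm]
      refine sum_congr rfl fun S _ => ?_
      rw [sum_mul, sum_smul]
      exact sum_congr rfl fun j _ => by rw [mul_assoc]
    rw [hP, hQ, ← sum_sub_distrib]
    exact sum_congr rfl fun S _ => by rw [← sub_smul, ← sub_mul]
  have hb : ∀ S : Finset ι, |b S| ≤ K / 2 ^ (n + 1) := fun S => by
    rcases le_or_gt S.card n with h | h
    · simp only [b, hcz _ h, sub_self, abs_zero]; positivity
    · simp only [b, if_neg (show S.card ≠ 1 by omega), sub_zero]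
      refine (abs_sum_le_sum_abs _ _).trans ?_
      rw [div_eq_mul_one_div K]
      refine le_trans ?_ (mul_le_mul_of_nonneg_right hc (by positivity))
      rw [sum_mul]
      refine sum_le_sum fun j _ => ?_
      rw [abs_mul, abs_pow]
      refine mul_le_mul_of_nonneg_left ((pow_le_pow_left₀ (abs_nonneg _) (hz j) _).trans ?_)
        (abs_nonneg _)
      rw [div_pow, one_pow]
      exact one_div_le_one_div_of_le (by positivity) (pow_le_pow_right₀ one_le_two h)
  set W := R * (K + Fintype.card ι + 1)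
  have hsq := parseval_le b hb y hR
  have hpt : ∀ e, N (P e) ^ p ≤ 2 ^ p * (K ^ p + Φ ^ p * (W ^ (p - 2) * ‖Q e - P e‖ ^ 2)) := fun e => by
    have h1 : N (P e) ≤ K + Φ * ‖Q e - P e‖ := by
      have := map_sub_le_add N (Q e) (Q e - P e)
      rw [sub_sub_cancel] at this
      linarith [hQN e, hN (Q e - P e)]
    have hW : ‖Q e - P e‖ ≤ W := (norm_sub_le _ _).trans (by nlinarith [hQn e, hPn e])
    refine (pow_le_pow_left₀ (apply_nonneg N _) h1 p).trans ((add_pow_le hK (by positivity) p).trans ?_)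
    refine mul_le_mul (pow_le_pow_right₀ one_le_two (Nat.sub_le p 1)) (add_le_add le_rfl ?_)
      (by positivity) (by positivity)
    rw [mul_pow]
    refine mul_le_mul_of_nonneg_left ?_ (by positivity)
    calc ‖Q e - P e‖ ^ p = ‖Q e - P e‖ ^ (p - 2) * ‖Q e - P e‖ ^ 2 := by
          rw [← pow_add, Nat.sub_add_cancel hp]
      _ ≤ _ := mul_le_mul_of_nonneg_right (pow_le_pow_left₀ (norm_nonneg _) hW _) (sq_nonneg _)
  rw [div_le_iff₀ hD0]
  refine (sum_le_sum fun e _ => hpt e).trans ?_
  rw [← mul_sum, sum_add_distrib, ← mul_sum, ← mul_sum, sum_const, card_univ, nsmul_eq_mul,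
    sum_congr rfl fun e _ => by rw [hdiff e], mul_assoc _ _ D]
  refine mul_le_mul_of_nonneg_left ?_ (by positivity)
  rw [add_mul]
  refine add_le_add (le_of_eq (by simp [hD, mul_comm])) ?_
  refine (mul_le_mul_of_nonneg_left (mul_le_mul_of_nonneg_left hsq (by positivity))
    (by positivity)).trans ?_
  have hk2 : (K / 2 ^ (n + 1)) ^ 2 * R ^ 2 ≤ W ^ 2 / 4 ^ n := by
    rw [div_pow, div_mul_eq_mul_div, ← mul_pow]
    refine div_le_div₀ (sq_nonneg _) (pow_le_pow_left₀ (by positivity) ?_ 2) (by positivity) ?_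
    · rw [mul_comm]
      exact mul_le_mul_of_nonneg_left (by linarith [(Nat.cast_nonneg _ : (0 : ℝ) ≤ Fintype.card ι)]) hR0
    · rw [← pow_mul, show (4 : ℝ) = 2 ^ 2 by norm_num, ← pow_mul]
      exact pow_le_pow_right₀ one_le_two (by omega)
  rw [← hD]
  calc Φ ^ p * (W ^ (p - 2) * (D * ((K / 2 ^ (n + 1)) ^ 2 * R ^ 2)))
      ≤ Φ ^ p * (W ^ (p - 2) * (D * (W ^ 2 / 4 ^ n))) := by gcongr
    _ = (Φ * R * (K + Fintype.card ι + 1)) ^ p / 4 ^ n * D := by
        rw [mul_assoc Φ R]
        change _ = (Φ * W) ^ p / 4 ^ n * D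
        rw [mul_pow Φ W]
        rw [show W ^ p = W ^ (p - 2) * W ^ 2 by rw [← pow_add, Nat.sub_add_cancel hp]]
        ring

/-- Contraction principle. -/
theorem cube_contraction (N : Seminorm ℝ E) (T : ι → E) (a : ι → ℝ) {α : ℝ} (ha : ∀ i, |a i| ≤ α)
    (p : ℕ) :
    ∑ e : ι → Bool, N (∑ i, (a i * sg (e i)) • T i) ^ p ≤
      α ^ p * ∑ e : ι → Bool, N (∑ i, sg (e i) • T i) ^ p := by
  rcases isEmpty_or_nonempty ι with hι | hι
  · rcases Nat.eq_zero_or_pos p with rfl | hp
    · simp
    · simp [zero_pow hp.ne']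
  obtain ⟨i₀⟩ := hι
  have hα : 0 ≤ α := (abs_nonneg _).trans (ha i₀)
  obtain ⟨t, ht, hat⟩ : ∃ t : ι → ℝ, (∀ i, |t i| ≤ 1) ∧ ∀ i, a i = α * t i := by
    refine ⟨fun i => a i / α, fun i => ?_, fun i => ?_⟩
    · rw [abs_div, abs_of_nonneg hα]; exact div_le_one_of_le₀ (ha i) hα
    · rcases hα.lt_or_eq with h | h
      · field_simp
      · simp [← h, abs_nonpos_iff.1 ((ha i).trans_eq h.symm)]
  have hrep : ∀ e : ι → Bool, ∑ i, (a i * sg (e i)) • T i =
      α • ∑ h, wt t h • ∑ i, sg (tw e h i) • T i := fun e => by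
    simp only [smul_sum, smul_smul]
    rw [sum_comm]
    refine sum_congr rfl fun i _ => ?_
    rw [← sum_smul]
    congr 1
    have := wt_chr t {i}
    simp only [chr, prod_singleton] at this
    rw [hat, ← this, mul_sum, sum_mul]
    exact sum_congr rfl fun h _ => by rw [sg_tw]; ring
  calc ∑ e : ι → Bool, N (∑ i, (a i * sg (e i)) • T i) ^ p
      ≤ ∑ e : ι → Bool, α ^ p * ∑ h, wt t h * N (∑ i, sg (tw e h i) • T i) ^ p := by
        refine sum_le_sum fun e _ => ?_
        rw [hrep, map_smul_eq_mul, Real.norm_of_nonneg hα, mul_pow]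
        refine mul_le_mul_of_nonneg_left (le_trans (pow_le_pow_left₀ (apply_nonneg N _) ?_ p)
          (Real.pow_arith_mean_le_arith_mean_pow univ _ _ (fun h _ => wt_nonneg ht h) (wt_sum t)
            (fun h _ => apply_nonneg N _) p)) (by positivity)
        refine (le_sum_of_subadditive N (map_zero N).le (fun a b => map_add_le_add N a b) univ _).trans_eq ?_
        exact sum_congr rfl fun h _ => by
          rw [map_smul_eq_mul, Real.norm_of_nonneg (wt_nonneg ht h)]
    _ = _ := by
        rw [← mul_sum, sum_comm]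
        congr 1
        have : ∀ h, ∑ e : ι → Bool, N (∑ i, sg (tw e h i) • T i) ^ p =
            ∑ e : ι → Bool, N (∑ i, sg (e i) • T i) ^ p := fun h => by
          have e1 : ∀ e, tw e h = tw h e := fun e => funext fun i => by unfold tw; cases e i <;> cases h i <;> rfl
          simp only [e1]
          exact sum_tw h fun e => N (∑ i, sg (e i) • T i) ^ p
        simp only [← mul_sum, this, ← sum_mul, wt_sum, one_mul]

end Vale.Agent.P160R.RM
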