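import Mathlib

/-!
P160, reverse Minkowski: the cube of signs, lattice vectors and the Voronoi norm.
-/

namespace Vale.Agent.P160R.RM

open scoped RealInnerProductSpace

/-- The sign of a bit. -/
def sg (b : Bool) : ℝ := if b then 1 else -1

/-- Euclidean space of dimension `d`. -/
abbrev Eu (d : ℕ) := EuclideanSpace ℝ (Fin d)

/-- The lattice vector with integer coordinates `z` in the basis `A`. -/
noncomputable def lvec {d k : ℕ} (A : Fin k → Eu d) (z : Fin k → ℤ) : Eu d := ∑ i, (z i : ℝ) • A i

/-- The norm whose unit ball is the Voronoi cell of the lattice spanned by `A`. -/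
noncomputable def vnorm {d k : ℕ} (A : Fin k → Eu d) (x : Eu d) : ℝ :=
  ⨆ z : Fin k → ℤ, 2 * ⟪x, lvec A z⟫ / ‖lvec A z‖ ^ 2

end Vale.Agent.P160R.RM
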