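import Vale.Agent.P160R.RM.Defs
import Vale.Agent.P226.GeomLaw

/-!
P160, reverse Minkowski: facts about the standard Gaussian measure.
-/

namespace Vale.Agent.P160R.RM

open MeasureTheory ProbabilityTheory
open scoped RealInnerProductSpace ENNReal

/-- The standard Gaussian measure. -/
noncomputable abbrev gam (d : ℕ) : Measure (Eu d) := stdGaussian (Eu d)

/-- The Gaussian density. -/
noncomputable def dens (d : ℕ) (x : Eu d) : ℝ≥0∞ := ENNReal.ofReal (P226.Geo.rad d ‖x‖)

lemma gam_apply {d : ℕ} {s : Set (Eu d)} (hs : MeasurableSet s) :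
    gam d s = ∫⁻ x in s, dens d x := by
  show P226.gam d s = _
  rw [P226.Geo.gam_eq_withDensity, withDensity_apply _ hs]
  rfl

lemma measurable_dens (d : ℕ) : Measurable (dens d) := by
  unfold dens P226.Geo.rad
  fun_prop

lemma dens_mono {d : ℕ} {x y : Eu d} (h : ‖x‖ ≤ ‖y‖) : dens d y ≤ dens d x := by
  refine ENNReal.ofReal_le_ofReal ?_
  unfold P226.Geo.rad
  gcongr

/-- The mass of a translated set. -/
lemma gam_translate {d : ℕ} {s : Set (Eu d)} (hs : MeasurableSet s) (v : Eu d) :
    gam d ((fun x => x - v) ⁻¹' s) = ∫⁻ x in s, dens d (x + v) := by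
  rw [gam_apply (hs.preimage (by fun_prop))]
  have h := (measurePreserving_sub_right (volume : Measure (Eu d)) v).setLIntegral_comp_preimage hs
    ((measurable_dens d).comp (measurable_id.add_const v))
  simpa using h

/-- A symmetric set keeps at least `exp (-‖v‖ ^ 2 / 2)` of its mass under a translation. -/
lemma gam_translate_ge {d : ℕ} {s : Set (Eu d)} (hs : MeasurableSet s) (hsymm : ∀ x, -x ∈ s ↔ x ∈ s)
    (v : Eu d) :
    ENNReal.ofReal (Real.exp (-‖v‖ ^ 2 / 2)) * gam d s ≤ gam d ((fun x => x - v) ⁻¹' s) := by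
  have hm := measurable_dens d
  have hneg : ∫⁻ x in s, dens d (x + v) = ∫⁻ x in s, dens d (x - v) := by
    have h := (Measure.measurePreserving_neg (volume : Measure (Eu d))).setLIntegral_comp_preimage hs
      (hm.comp (measurable_id.sub_const v))
    rw [show Neg.neg ⁻¹' s = s from Set.ext fun x => hsymm x] at h
    refine Eq.trans (setLIntegral_congr_fun hs fun x _ => ?_) h
    show dens d (x + v) = dens d (-x - v)
    simp [dens, show -x - v = -(x + v) by abel, neg_add_rev, ← norm_neg (x + v)]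
  have hpt : ∀ x, 2 * (ENNReal.ofReal (Real.exp (-‖v‖ ^ 2 / 2)) * dens d x) ≤
      dens d (x + v) + dens d (x - v) := fun x => by
    simp only [dens, P226.Geo.rad]
    rw [← ENNReal.ofReal_mul (Real.exp_nonneg _), two_mul,
      ← ENNReal.ofReal_add (by positivity) (by positivity),
      ← ENNReal.ofReal_add (by positivity) (by positivity)]
    refine ENNReal.ofReal_le_ofReal ?_
    set K := (Real.sqrt (2 * Real.pi))⁻¹ ^ d
    have hK : 0 ≤ K := by positivity
    have e1 : -‖x + v‖ ^ 2 / 2 = -‖v‖ ^ 2 / 2 + -‖x‖ ^ 2 / 2 - ⟪x, v⟫ := by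
      rw [norm_add_sq_real]; ring
    have e2 : -‖x - v‖ ^ 2 / 2 = -‖v‖ ^ 2 / 2 + -‖x‖ ^ 2 / 2 + ⟪x, v⟫ := by
      rw [norm_sub_sq_real]; ring
    rw [e1, e2]
    set a := -‖v‖ ^ 2 / 2
    set b := -‖x‖ ^ 2 / 2
    set w := ⟪x, v⟫
    have : 2 * Real.exp (a + b) ≤ Real.exp (a + b - w) + Real.exp (a + b + w) := by
      rw [sub_eq_add_neg, Real.exp_add (a + b), Real.exp_add (a + b)]
      nlinarith [Real.one_le_cosh w, Real.exp_pos (a + b), Real.cosh_eq w]
    rw [Real.exp_add a b] at this
    nlinarith [mul_le_mul_of_nonneg_left this hK]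
  rw [gam_translate hs, gam_apply hs]
  refine (ENNReal.mul_le_mul_iff_right (a := 2) (by simp) (by simp)).1 ?_
  calc 2 * (ENNReal.ofReal (Real.exp (-‖v‖ ^ 2 / 2)) * ∫⁻ x in s, dens d x)
      = ∫⁻ x in s, 2 * (ENNReal.ofReal (Real.exp (-‖v‖ ^ 2 / 2)) * dens d x) := by
        rw [lintegral_const_mul _ (hm.const_mul _), lintegral_const_mul _ hm]
    _ ≤ ∫⁻ x in s, dens d (x + v) + dens d (x - v) := lintegral_mono fun x => hpt x
    _ = _ := by
        have hp : Measurable fun x : Eu d => dens d (x + v) := hm.comp (measurable_id.add_const v)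
        rw [lintegral_add_left hp, ← hneg, two_mul]

/-- The coordinates along a family of vectors. -/
noncomputable def coords {d r : ℕ} (e : Fin r → Eu d) : Eu d →L[ℝ] Eu r :=
  (PiLp.continuousLinearEquiv 2 ℝ (fun _ : Fin r => ℝ)).symm.toContinuousLinearMap.comp
    (ContinuousLinearMap.pi fun i => innerSL ℝ (e i))

lemma coords_apply {d r : ℕ} (e : Fin r → Eu d) (x : Eu d) (i : Fin r) :
    coords e x i = ⟪e i, x⟫ := rfl

lemma inner_coords {d r : ℕ} (e : Fin r → Eu d) (x : Eu d) (y : Eu r) :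
    ⟪coords e x, y⟫ = ⟪x, ∑ i, y i • e i⟫ := by
  rw [inner_sum, PiLp.inner_apply]
  refine Finset.sum_congr rfl fun i _ => ?_
  rw [coords_apply, real_inner_smul_right, real_inner_comm x (e i)]
  simp

/-- Coordinates along orthonormal vectors are standard Gaussians. -/
lemma gam_map_coords {d r : ℕ} {e : Fin r → Eu d} (he : Orthonormal ℝ e) :
    (gam d).map (coords e) = gam r := by
  refine Measure.ext_of_charFun (funext fun y => ?_)
  rw [charFun_apply, integral_map (coords e).continuous.aemeasurable (by fun_prop)]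
  simp only [inner_coords]
  rw [← charFun_apply, charFun_stdGaussian, charFun_stdGaussian]
  congr 2
  have : ‖∑ i, y i • e i‖ ^ 2 = ‖y‖ ^ 2 := by
    rw [← real_inner_self_eq_norm_sq, he.inner_sum, EuclideanSpace.real_norm_sq_eq]
    simp [sq]
  exact_mod_cast congrArg (fun t : ℝ => -t) this

/-- A unit functional is a standard normal variable. -/
lemma gam_map_inner {d : ℕ} {v : Eu d} (hv : ‖v‖ = 1) :
    (gam d).map (fun x => ⟪v, x⟫) = gaussianReal 0 1 := by
  refine Measure.ext_of_charFun (funext fun t => ?_)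
  rw [charFun_apply, integral_map (by fun_prop) (by fun_prop)]
  have e : ∀ x : Eu d, ⟪(⟪v, x⟫ : ℝ), t⟫ = ⟪x, t • v⟫ := fun x => by
    rw [real_inner_smul_right, real_inner_comm x v]; simp
  simp only [e]
  rw [← charFun_apply, charFun_stdGaussian, charFun_gaussianReal]
  simp [norm_smul, hv]
  norm_cast
  simp only [sq_abs, neg_div]

lemma integrable_abs_pow (p : ℕ) : Integrable (fun g : ℝ => |g| ^ p) (gaussianReal 0 1) := by
  refine Integrable.mono' (((integrable_exp_mul_gaussianReal 1).add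
    (integrable_exp_mul_gaussianReal (-1))).const_mul (p.factorial : ℝ)) (by fun_prop)
    (Filter.Eventually.of_forall fun g => ?_)
  have h := Real.pow_div_factorial_le_exp |g| (abs_nonneg g) p
  rw [div_le_iff₀ (by positivity)] at h
  rw [Real.norm_eq_abs, abs_pow, abs_abs]
  refine h.trans ?_
  rw [Pi.add_apply, mul_comm, one_mul, neg_one_mul]
  refine mul_le_mul_of_nonneg_left ?_ (by positivity)
  rcases abs_cases g with h | h <;> rw [h.1] <;> linarith [Real.exp_pos g, Real.exp_pos (-g)]

/-- Moments of a standard normal variable. -/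
lemma integral_abs_pow_le (p : ℕ) :
    ∫ g, |g| ^ p ∂(gaussianReal 0 1) ≤ 4 * (p : ℝ) ^ p := by
  have hp : ((p.factorial : ℕ) : ℝ) ≤ (p : ℝ) ^ p := by exact_mod_cast Nat.factorial_le_pow p
  have hm : ∀ t : ℝ, ∫ g, Real.exp (t * g) ∂(gaussianReal 0 1) = Real.exp (t ^ 2 / 2) := fun t => by
    simpa [mgf] using congrFun (mgf_id_gaussianReal (μ := 0) (v := 1)) t
  have h12 : Real.exp (1 / 2 : ℝ) ≤ 2 := by
    nlinarith [Real.exp_one_lt_d9, Real.exp_pos (1 / 2 : ℝ),
      (Real.exp_add (1 / 2) (1 / 2)).symm.trans (by norm_num : Real.exp (1 / 2 + 1 / 2) = Real.exp 1)]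
  calc ∫ g, |g| ^ p ∂(gaussianReal 0 1)
      ≤ ∫ g, (p.factorial : ℝ) * (Real.exp (1 * g) + Real.exp (-1 * g)) ∂(gaussianReal 0 1) := by
        refine integral_mono (integrable_abs_pow p) (((integrable_exp_mul_gaussianReal 1).add
          (integrable_exp_mul_gaussianReal (-1))).const_mul _) fun g => ?_
        have h := Real.pow_div_factorial_le_exp |g| (abs_nonneg g) p
        rw [div_le_iff₀ (by positivity), mul_comm] at h
        refine h.trans (mul_le_mul_of_nonneg_left ?_ (by positivity))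
        rw [one_mul, neg_one_mul]
        rcases abs_cases g with h | h <;> rw [h.1] <;> linarith [Real.exp_pos g, Real.exp_pos (-g)]
    _ = (p.factorial : ℝ) * (Real.exp (1 / 2) + Real.exp (1 / 2)) := by
        rw [integral_const_mul, integral_add (integrable_exp_mul_gaussianReal 1)
          (integrable_exp_mul_gaussianReal (-1)), hm, hm]
        norm_num
    _ ≤ _ := by
        have := Real.exp_pos (1 / 2 : ℝ)
        nlinarith [pow_nonneg (Nat.cast_nonneg p : (0 : ℝ) ≤ p) p,
          (Nat.cast_nonneg p.factorial : (0 : ℝ) ≤ p.factorial)]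

/-- An even moment of order at least two is at least one. -/
lemma one_le_integral_abs_pow {p : ℕ} (hp : 2 ≤ p) (he : Even p) :
    1 ≤ ∫ g, |g| ^ p ∂(gaussianReal 0 1) := by
  obtain ⟨k, rfl⟩ := he
  have h2 : ∫ g, g ^ 2 ∂(gaussianReal 0 1) = 1 := by
    have := variance_id_gaussianReal (μ := 0) (v := 1)
    rw [variance_eq_integral (by fun_prop)] at this
    simpa using this
  have hi := integrable_abs_pow 2
  calc (1 : ℝ) = ∫ g, (k : ℝ) * |g| ^ 2 - ((k : ℝ) - 1) ∂(gaussianReal 0 1) := by
        rw [integral_sub (hi.const_mul _) (integrable_const _), integral_const_mul]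
        simp [sq_abs, h2]
    _ ≤ _ := integral_mono ((hi.const_mul _).sub (integrable_const _)) (integrable_abs_pow _) fun g => by
        have hB := one_add_mul_sub_le_pow (a := |g| ^ 2) (by nlinarith [sq_nonneg |g|]) k
        rw [← pow_mul] at hB
        rw [show k + k = 2 * k by ring]
        linarith

lemma integrable_abs_inner_pow {d : ℕ} {v : Eu d} (hv : ‖v‖ = 1) (p : ℕ) :
    Integrable (fun x => |⟪v, x⟫| ^ p) (gam d) := by
  have h := integrable_abs_pow p
  rw [← gam_map_inner hv] at h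
  exact (integrable_map_measure (f := fun x : Eu d => ⟪v, x⟫) (g := fun g : ℝ => |g| ^ p)
    (by fun_prop) (by fun_prop)).1 h

lemma integral_abs_inner_pow {d : ℕ} {v : Eu d} (hv : ‖v‖ = 1) (p : ℕ) :
    ∫ x, |⟪v, x⟫| ^ p ∂(gam d) = ∫ g, |g| ^ p ∂(gaussianReal 0 1) := by
  rw [← gam_map_inner hv, integral_map (by fun_prop) (by fun_prop)]

lemma integrable_norm_pow (d p : ℕ) : Integrable (fun x : Eu d => ‖x‖ ^ p) (gam d) := by
  rcases eq_or_ne p 0 with rfl | hp
  · simpa using integrable_const (1 : ℝ)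
  exact (IsGaussian.memLp_id (gam d) (p : ℝ≥0∞) (by simp)).integrable_norm_pow hp

end Vale.Agent.P160R.RM
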