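import Vale.Agent.P160R.RM.Defs

/-!
P160, reverse Minkowski: Gram determinants of lattice vectors, monotonicity, saturation and splitting.
-/

namespace Vale.Agent.P160R.RM

open Matrix
open scoped RealInnerProductSpace MatrixOrder

/-- Every sublattice of the lattice spanned by `A` has Gram determinant at least one. -/
def Big {d : ℕ} (A : Fin d → Eu d) : Prop :=
  ∀ (r : ℕ) (Z : Fin r → Fin d → ℤ), LinearIndependent ℤ Z →
    1 ≤ (gram ℝ fun c => lvec A (Z c)).det

lemma one_le_det_one_add {n : Type*} [Fintype n] [DecidableEq n] {S : Matrix n n ℝ}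
    (hS : S.PosSemidef) : 1 ≤ (1 + S).det := by
  have h : (1 + S).IsHermitian := Matrix.isHermitian_one.add hS.1
  rw [h.det_eq_prod_eigenvalues]
  refine Finset.one_le_prod fun i => ?_
  set v : n → ℝ := ⇑(h.eigenvectorBasis i)
  have hv : v ⬝ᵥ v = 1 := by
    have := h.eigenvectorBasis.orthonormal.1 i
    have h2 : ‖h.eigenvectorBasis i‖ ^ 2 = 1 := by rw [this]; norm_num
    rw [EuclideanSpace.real_norm_sq_eq] at h2
    simpa [v, dotProduct, sq] using h2
  have e := congrArg (fun w => v ⬝ᵥ w) (h.mulVec_eigenvectorBasis i)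
  simp only [add_mulVec, one_mulVec, dotProduct_add, dotProduct_smul, smul_eq_mul] at e
  change v ⬝ᵥ v + v ⬝ᵥ S *ᵥ v = h.eigenvalues i * (v ⬝ᵥ v) at e
  rw [hv, mul_one] at e
  have := hS.dotProduct_mulVec_nonneg v
  simp only [star_trivial] at this
  have h' : (1 : ℝ) ≤ h.eigenvalues i := by linarith
  simpa using h'

/-- The determinant is monotone on positive matrices. -/
lemma det_le_det_add {n : Type*} [Fintype n] [DecidableEq n] {P Q : Matrix n n ℝ}
    (hP : P.PosSemidef) (hQ : Q.PosSemidef) : P.det ≤ (P + Q).det := by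
  by_cases h0 : P.det = 0
  · rw [h0]; exact (hP.add hQ).det_nonneg
  obtain ⟨B, hB⟩ := CStarAlgebra.nonneg_iff_eq_star_mul_self.mp hP.nonneg
  rw [star_eq_conjTranspose] at hB
  subst hB
  have hu : IsUnit B.det := by
    rw [isUnit_iff_ne_zero]
    exact fun h => h0 (by rw [det_mul, h, mul_zero])
  have e : Bᴴ * B + Q = Bᴴ * (1 + (B⁻¹)ᴴ * Q * B⁻¹) * B := by
    rw [Matrix.mul_add, Matrix.add_mul, Matrix.mul_one]
    congr 1
    have h1 : Bᴴ * (B⁻¹)ᴴ = 1 := by
      rw [← conjTranspose_mul, nonsing_inv_mul _ hu, conjTranspose_one]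
    calc Q = (Bᴴ * (B⁻¹)ᴴ) * Q * (B⁻¹ * B) := by
          rw [h1, nonsing_inv_mul _ hu, Matrix.one_mul, Matrix.mul_one]
      _ = _ := by simp only [Matrix.mul_assoc]
  rw [e, det_mul, det_mul, det_mul, det_conjTranspose, star_trivial]
  have hS : 1 ≤ (1 + (B⁻¹)ᴴ * Q * B⁻¹).det :=
    one_le_det_one_add (hQ.conjTranspose_mul_mul_same B⁻¹)
  nlinarith [mul_le_mul_of_nonneg_left hS (mul_self_nonneg B.det)]

/-- A map that shrinks lengths by at most the factor `a`. -/
lemma det_gram_map_ge {d e : ℕ} {n : Type*} [Fintype n] [DecidableEq n] (T : Eu d →ₗ[ℝ] Eu e)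
    {a : ℝ} (ha : 0 ≤ a) (hT : ∀ x, a * ‖x‖ ≤ ‖T x‖) (v : n → Eu d) :
    (a ^ 2) ^ Fintype.card n * (gram ℝ v).det ≤ (gram ℝ (T ∘ v)).det := by
  have hQ : (gram ℝ (T ∘ v) - a ^ 2 • gram ℝ v).PosSemidef := by
    refine PosSemidef.of_dotProduct_mulVec_nonneg
      ((isHermitian_gram ℝ _).sub ((posSemidef_gram ℝ v).smul (sq_nonneg a)).1) fun c => ?_
    rw [sub_mulVec, smul_mulVec, dotProduct_sub, dotProduct_smul, star_dotProduct_gram_mulVec,
      star_dotProduct_gram_mulVec, smul_eq_mul, real_inner_self_eq_norm_sq,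
      real_inner_self_eq_norm_sq, sub_nonneg]
    have e : ∑ i, c i • (T ∘ v) i = T (∑ i, c i • v i) := by simp
    rw [e, ← mul_pow]
    exact pow_le_pow_left₀ (mul_nonneg ha (norm_nonneg _)) (hT _) 2
  have h := det_le_det_add ((posSemidef_gram ℝ v).smul (sq_nonneg a)) hQ
  rw [add_sub_cancel, det_smul] at h
  exact h

/-- Gram matrices of linear combinations. -/
lemma gram_comb {d : ℕ} {m n : Type*} [Fintype m] (v : m → Eu d) (C : Matrix m n ℝ) :
    gram ℝ (fun c => ∑ i, C i c • v i) = Cᵀ * gram ℝ v * C := by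
  ext c c'
  simp only [gram_apply, mul_apply, transpose_apply, sum_inner, inner_sum, real_inner_smul_left,
    real_inner_smul_right, Finset.sum_mul]
  refine Finset.sum_congr rfl fun i _ => Finset.sum_congr rfl fun j _ => ?_
  ring

lemma det_gram_comb {d : ℕ} {n : Type*} [Fintype n] [DecidableEq n] (v : n → Eu d)
    (C : Matrix n n ℝ) :
    (gram ℝ fun c => ∑ i, C i c • v i).det = C.det ^ 2 * (gram ℝ v).det := by
  rw [gram_comb, det_mul, det_mul, det_transpose]
  ring

/-- The Gram determinant of a full family transforms by the square of the determinant. -/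
lemma det_gram_map {d : ℕ} (T : Eu d →ₗ[ℝ] Eu d) (v : Fin d → Eu d) :
    (gram ℝ (T ∘ v)).det = LinearMap.det T ^ 2 * (gram ℝ v).det := by
  set b := EuclideanSpace.basisFun (Fin d) ℝ
  have e : (of fun i j => b.repr ((T ∘ v) j) i : Matrix (Fin d) (Fin d) ℝ) =
      LinearMap.toMatrix b.toBasis b.toBasis T * of fun i j => b.repr (v j) i := by
    ext i j
    have h := congrFun (LinearMap.toMatrix_mulVec_repr b.toBasis b.toBasis T (v j)) i
    simpa [mulVec, dotProduct, mul_apply] using h.symm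
  have hg : ∀ w : Fin d → Eu d, (gram ℝ w).det =
      (of fun i j => b.repr (w j) i : Matrix (Fin d) (Fin d) ℝ).det ^ 2 := fun w => by
    rw [gram_eq_conjTranspose_mul b w, det_mul, det_conjTranspose, star_trivial, sq]
  rw [hg, hg, e, det_mul, LinearMap.det_toMatrix, mul_pow]

/-- The residual of `x` after removing its component along an orthonormal family. -/
lemma inner_residual {d r : ℕ} {e : Fin r → Eu d} (he : Orthonormal ℝ e) (x : Eu d) (i : Fin r) :
    ⟪e i, x - ∑ j, ⟪e j, x⟫ • e j⟫ = 0 := by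
  rw [inner_sub_right, inner_sum]
  simp [real_inner_smul_right, orthonormal_iff_ite.1 he]

/-- Splitting the Gram determinant. -/
lemma det_gram_sum {d : ℕ} {α β : Type*} [Fintype α] [Fintype β] [DecidableEq α] [DecidableEq β]
    (a : α → Eu d) (b : β → Eu d) (C : Matrix α β ℝ)
    (h : ∀ i j, ⟪a i, b j - ∑ k, C k j • a k⟫ = 0) :
    (gram ℝ (Sum.elim a b)).det =
      (gram ℝ a).det * (gram ℝ fun j => b j - ∑ k, C k j • a k).det := by
  set b' := fun j => b j - ∑ k, C k j • a k
  have e : gram ℝ (Sum.elim a b) =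
      (fromBlocks 1 C 0 1)ᵀ * gram ℝ (Sum.elim a b') * fromBlocks 1 C 0 1 := by
    rw [← gram_comb]
    congr 1
    funext c
    rcases c with i | j
    · simp [Fintype.sum_sum_type, Matrix.one_apply, ite_smul]
    · simp [Fintype.sum_sum_type, Matrix.one_apply, ite_smul, b']
  have e2 : gram ℝ (Sum.elim a b') = fromBlocks (gram ℝ a) 0 0 (gram ℝ b') := by
    ext i j
    rcases i with i | i <;> rcases j with j | j <;> simp only [gram_apply, Sum.elim_inl,
      Sum.elim_inr, fromBlocks_apply₁₁, fromBlocks_apply₁₂, fromBlocks_apply₂₁,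
      fromBlocks_apply₂₂, Matrix.zero_apply]
    · exact h i j
    · rw [real_inner_comm]; exact h j i
  rw [e, det_mul, det_mul, det_transpose, det_fromBlocks_zero₂₁, e2, det_fromBlocks_zero₂₁]
  simp

lemma lvec_sum {d k : ℕ} {α : Type*} [Fintype α] (A : Fin k → Eu d) (n : α → ℤ)
    (z : α → Fin k → ℤ) : lvec A (∑ i, n i • z i) = ∑ i, (n i : ℝ) • lvec A (z i) := by
  simp only [lvec, Finset.sum_apply, Pi.smul_apply, Int.cast_sum, smul_eq_mul, Int.cast_mul,
    Finset.sum_smul, Finset.smul_sum, smul_smul]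
  exact Finset.sum_comm

/-- A sublattice is contained in a direct summand of the same rank. -/
lemma exists_saturation {d r : ℕ} (Z : Fin r → Fin d → ℤ) (hZ : LinearIndependent ℤ Z) :
    ∃ (s : ℕ) (U : Module.Basis (Fin r ⊕ Fin s) ℤ (Fin d → ℤ)),
      ∀ c, Z c ∈ Submodule.span ℤ (Set.range fun i => U (Sum.inl i)) := by
  classical
  set P : Submodule ℤ (Fin d → ℤ) :=
    { carrier := {z | ∃ k : ℤ, k ≠ 0 ∧ k • z ∈ Submodule.span ℤ (Set.range Z)}
      add_mem' := by
        rintro a b ⟨k, hk, ha⟩ ⟨l, hl, hb⟩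
        refine ⟨k * l, mul_ne_zero hk hl, ?_⟩
        rw [smul_add]
        refine add_mem ?_ ?_
        · rw [mul_comm, mul_smul]; exact Submodule.smul_mem _ _ ha
        · rw [mul_smul]; exact Submodule.smul_mem _ _ hb
      zero_mem' := ⟨1, one_ne_zero, by simp⟩
      smul_mem' := by
        rintro c a ⟨k, hk, ha⟩
        exact ⟨k, hk, by rw [smul_comm]; exact Submodule.smul_mem _ _ ha⟩ } with hP
  have hmem : ∀ c, Z c ∈ P := fun c =>
    ⟨1, one_ne_zero, by rw [one_smul]; exact Submodule.subset_span ⟨c, rfl⟩⟩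
  have : Module.IsTorsionFree ℤ ((Fin d → ℤ) ⧸ P) := by
    refine Module.isTorsionFree_iff_smul_eq_zero.2 fun k q hkq => ?_
    obtain ⟨z, rfl⟩ := Submodule.Quotient.mk_surjective P q
    rw [← Submodule.Quotient.mk_smul, Submodule.Quotient.mk_eq_zero] at hkq
    rw [Submodule.Quotient.mk_eq_zero]
    by_cases hk : k = 0
    · exact Or.inl hk
    · obtain ⟨l, hl, hlz⟩ := hkq
      exact Or.inr ⟨l * k, mul_ne_zero hl hk, by rwa [mul_smul]⟩
  have hrank : Module.finrank ℤ P = r := by
    have hle : Submodule.span ℤ (Set.range Z) ≤ P := Submodule.span_le.2 (by rintro _ ⟨c, rfl⟩; exact hmem c)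
    refine le_antisymm ?_ ?_
    · set bP := Module.Free.chooseBasis ℤ P
      have hk : ∀ i, ∃ k : ℤ, k ≠ 0 ∧ k • (bP i : Fin d → ℤ) ∈ Submodule.span ℤ (Set.range Z) :=
        fun i => (bP i).2
      choose k hk0 hk1 using hk
      set K := ∏ i, k i
      have hK0 : K ≠ 0 := Finset.prod_ne_zero_iff.2 fun i _ => hk0 i
      have hmap : ∀ x : P, K • (x : Fin d → ℤ) ∈ Submodule.span ℤ (Set.range Z) := by
        intro x
        have e : (x : Fin d → ℤ) = ∑ i, bP.repr x i • (bP i : Fin d → ℤ) := by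
          have h := congrArg (fun y : P => (y : Fin d → ℤ)) (bP.sum_repr x)
          simp only [Submodule.coe_sum, Submodule.coe_smul] at h
          exact h.symm
        rw [e, Finset.smul_sum]
        refine sum_mem fun i _ => ?_
        rw [smul_comm]
        refine Submodule.smul_mem _ _ ?_
        obtain ⟨q, hq⟩ : k i ∣ K := Finset.dvd_prod_of_mem _ (Finset.mem_univ i)
        rw [hq, mul_comm, mul_smul]
        exact Submodule.smul_mem _ _ (hk1 i)
      let f : P →ₗ[ℤ] Submodule.span ℤ (Set.range Z) :=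
        LinearMap.codRestrict _ (K • P.subtype) hmap
      have hf : Function.Injective f := fun x y h => by
        have h' := congrArg Subtype.val h
        simp only [f] at h'
        exact Subtype.ext (smul_right_injective _ hK0 h')
      refine (LinearMap.finrank_le_finrank_of_injective hf).trans ?_
      rw [finrank_span_eq_card hZ, Fintype.card_fin]
    · refine le_trans ?_ (Submodule.finrank_mono hle)
      rw [finrank_span_eq_card hZ, Fintype.card_fin]
  set bW : Module.Basis (Fin r) ℤ P :=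
    (Module.finBasis ℤ P).reindex (finCongr hrank)
  refine ⟨_, Module.Basis.sumQuot bW (Module.finBasis ℤ ((Fin d → ℤ) ⧸ P)), fun c => ?_⟩
  simp only [Module.Basis.sumQuot_inl]
  have h := congrArg (fun x : P => (x : Fin d → ℤ)) (bW.sum_repr ⟨Z c, hmem c⟩)
  simp only [Submodule.coe_sum, Submodule.coe_smul] at h
  rw [← h]
  exact sum_mem fun i _ => Submodule.smul_mem _ _ (Submodule.subset_span ⟨i, rfl⟩)

/-- The saturation has the smaller determinant. -/
lemma det_gram_saturation_le {d r : ℕ} (A : Fin d → Eu d) (Z U : Fin r → Fin d → ℤ)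
    (hZ : LinearIndependent ℤ Z) (h : ∀ c, Z c ∈ Submodule.span ℤ (Set.range U)) :
    (gram ℝ fun c => lvec A (U c)).det ≤ (gram ℝ fun c => lvec A (Z c)).det := by
  have hs : ∀ c, ∃ n : Fin r → ℤ, ∑ i, n i • U i = Z c := fun c =>
    Submodule.mem_span_range_iff_exists_fun ℤ |>.1 (h c)
  choose n hn using hs
  set C : Matrix (Fin r) (Fin r) ℤ := of fun i c => n c i
  have hC : C.det ≠ 0 := by
    intro h0
    obtain ⟨w, hw0, hw⟩ := Matrix.exists_mulVec_eq_zero_iff.2 h0
    refine hw0 (funext fun c => Fintype.linearIndependent_iff.1 hZ w ?_ c)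
    calc ∑ c, w c • Z c = ∑ i, (C *ᵥ w) i • U i := by
          simp only [← hn, Finset.smul_sum, mulVec, dotProduct, Finset.sum_smul, smul_smul]
          rw [Finset.sum_comm]
          exact Finset.sum_congr rfl fun i _ => Finset.sum_congr rfl fun c _ => by
            simp [C, mul_comm]
      _ = 0 := by simp [hw]
  have e : (fun c => lvec A (Z c)) =
      fun c => ∑ i, (C.map (Int.cast : ℤ → ℝ)) i c • lvec A (U i) := by
    funext c
    rw [← hn c, lvec_sum]
    rfl
  rw [e, det_gram_comb]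
  refine le_mul_of_one_le_left (posSemidef_gram ℝ _).det_nonneg ?_
  rw [show (C.map (Int.cast : ℤ → ℝ)).det = ((C.det : ℤ) : ℝ) from
    (RingHom.map_det (Int.castRingHom ℝ) C).symm]
  have : (1 : ℤ) ≤ C.det ^ 2 := by
    have := Int.one_le_abs hC
    nlinarith [sq_abs C.det]
  exact_mod_cast this

end Vale.Agent.P160R.RM
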