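import Vale.Agent.P160R.RM.Width.Discrete

/-!
P160, reverse Minkowski: a set of volume one has mean width at least of the order of the dimension.
-/

namespace Vale.Agent.P160R.RM

open MeasureTheory Finset

theorem sum_sg_eq_zero {d : ℕ} (i : Fin d) : ∑ e : Fin d → Bool, sg (e i) = 0 := by
  have hi : ∀ e : Fin d → Bool, Function.update e i (!e i) i = !e i := fun e => Function.update_self i _ e
  have h : ∑ e : Fin d → Bool, sg (Function.update e i (!e i) i) = ∑ e : Fin d → Bool, sg (e i) :=
    Equiv.sum_comp (⟨fun e => Function.update e i (!e i), fun e => Function.update e i (!e i),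
      fun e => by simp, fun e => by simp⟩ : (Fin d → Bool) ≃ (Fin d → Bool)) fun e => sg (e i)
  simp only [hi] at h
  have hn : ∀ b : Bool, sg (!b) = -sg b := fun b => by cases b <;> simp [sg]
  simp only [hn, sum_neg_distrib] at h
  linarith

/-- Some translate of the grid of mesh `1/M` puts `M^d` points into a set of volume one. -/
theorem exists_dense_translate {d M : ℕ} (hM : 0 < M) {W : Set (Fin d → ℝ)} (hW : MeasurableSet W)
    (hb : Bornology.IsBounded W) (hvol : 1 ≤ volume W) :
    ∃ (u : Fin d → ℝ) (S : Finset (Fin d → ℤ)), M ^ d ≤ S.card ∧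
      ∀ z ∈ S, (fun i => u i + (z i : ℝ) / M) ∈ W := by
  classical
  obtain ⟨B, hB⟩ := hb.exists_norm_le
  have hM' : (0 : ℝ) < M := Nat.cast_pos.2 hM
  obtain ⟨L, hL⟩ := exists_nat_gt ((B + 1) * M)
  set box : Finset (Fin d → ℤ) := Fintype.piFinset fun _ => Finset.Icc (-(L : ℤ) - 1) L
  set Q : Set (Fin d → ℝ) := Set.univ.pi fun _ => Set.Ico (0 : ℝ) (1 / M)
  have hQm : MeasurableSet Q := MeasurableSet.univ_pi fun _ => measurableSet_Ico
  have hQv : volume Q = (ENNReal.ofReal (1 / (M : ℝ))) ^ d := by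
    simp only [Q]
    rw [volume_pi_pi]
    simp [Real.volume_Ico, prod_const]
  by_contra hcon
  push Not at hcon
  have hle : ∀ u : Fin d → ℝ, (box.filter fun z => (fun i => u i + (z i : ℝ) / M) ∈ W).card + 1 ≤ M ^ d :=
    fun u => by
      by_contra h
      obtain ⟨z, hz, hz'⟩ := hcon u (box.filter fun z => (fun i => u i + (z i : ℝ) / M) ∈ W) (by omega)
      exact hz' (mem_filter.1 hz).2
  set tr : (Fin d → ℤ) → Set (Fin d → ℝ) := fun z =>
    (fun u => u + fun i => (z i : ℝ) / M) ⁻¹' W
  have hcover : W ⊆ ⋃ z ∈ box, (fun x => x + -fun i => (z i : ℝ) / M) ⁻¹' (Q ∩ tr z) := by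
    intro x hx
    set z : Fin d → ℤ := fun i => ⌊x i * M⌋
    have hzb : z ∈ box := Fintype.mem_piFinset.2 fun i => by
      have hxi : |x i| ≤ B := ((Real.norm_eq_abs (x i)).symm.le.trans (norm_le_pi_norm x i)).trans (hB x hx)
      have h1 : |x i * M| ≤ L := by
        rw [abs_mul, abs_of_pos hM']
        exact (mul_le_mul_of_nonneg_right hxi hM'.le).trans (by nlinarith)
      rw [Finset.mem_Icc]
      constructor
      · have : -(L : ℝ) - 1 ≤ (⌊x i * M⌋ : ℝ) := by
          linarith [Int.sub_one_lt_floor (x i * M), (abs_le.1 h1).1]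
        exact_mod_cast this
      · have : (⌊x i * M⌋ : ℝ) ≤ L := (Int.floor_le _).trans (abs_le.1 h1).2
        exact_mod_cast this
    refine Set.mem_iUnion₂.2 ⟨z, hzb, ?_, ?_⟩
    · simp only [Q, Set.mem_univ_pi, Set.mem_Ico, Pi.add_apply, Pi.neg_apply]
      intro i
      have e : x i + -((z i : ℝ) / M) = (x i * M - z i) / M := by field_simp; ring
      rw [e]
      exact ⟨div_nonneg (by linarith [Int.floor_le (x i * M)]) hM'.le,
        div_lt_div_of_pos_right (by linarith [Int.lt_floor_add_one (x i * M)]) hM'⟩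
    · show x + -(fun i => (z i : ℝ) / M) + (fun i => (z i : ℝ) / M) ∈ W
      rwa [neg_add_cancel_right]
  have htm : ∀ z, MeasurableSet (tr z) := fun z => hW.preimage (measurable_add_const _)
  have hstep : volume W ≤ ∫⁻ u in Q, ((M ^ d - 1 : ℕ) : ENNReal) := by
    calc volume W ≤ ∑ z ∈ box, volume ((fun x => x + -fun i => (z i : ℝ) / M) ⁻¹' (Q ∩ tr z)) :=
          (measure_mono hcover).trans (measure_biUnion_finset_le box _)
      _ = ∑ z ∈ box, ∫⁻ u in Q, (tr z).indicator 1 u := sum_congr rfl fun z _ => by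
          rw [measure_preimage_add_right, lintegral_indicator_one (htm z),
            Measure.restrict_apply (htm z), Set.inter_comm]
      _ = ∫⁻ u in Q, ∑ z ∈ box, (tr z).indicator 1 u :=
          (lintegral_finsetSum box fun z _ => measurable_const.indicator (htm z)).symm
      _ ≤ _ := lintegral_mono fun u => by
          have : ∑ z ∈ box, (tr z).indicator (1 : (Fin d → ℝ) → ENNReal) u =
              ((box.filter fun z => (fun i => u i + (z i : ℝ) / M) ∈ W).card : ENNReal) := by
            rw [card_filter, Nat.cast_sum]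
            refine sum_congr rfl fun z _ => ?_
            by_cases h : (fun i => u i + (z i : ℝ) / M) ∈ W
            · rw [Set.indicator_of_mem (show u ∈ tr z from h), if_pos h, Pi.one_apply, Nat.cast_one]
            · rw [Set.indicator_of_notMem (show u ∉ tr z from h), if_neg h, Nat.cast_zero]
          rw [this]
          exact Nat.cast_le.2 (by have := hle u; omega)
  rw [setLIntegral_const, hQv, ← ENNReal.ofReal_pow (by positivity), ← ENNReal.ofReal_natCast,
    ← ENNReal.ofReal_mul (Nat.cast_nonneg _)] at hstep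
  have h1 := (ENNReal.one_le_ofReal).1 (hvol.trans hstep)
  rw [one_div, inv_pow, ← div_eq_mul_inv, one_le_div₀ (by positivity), ← Nat.cast_pow, Nat.cast_le] at h1
  have := pow_pos hM d
  omega

/-- A set of volume at least one has Rademacher width at least `d / 6`. -/
theorem width_vol {d : ℕ} {V : Set (Eu d)} (hVm : MeasurableSet V) (hVb : Bornology.IsBounded V)
    (hV : 1 ≤ volume V) (H : (Fin d → Bool) → ℝ)
    (hH : ∀ e, ∀ x ∈ V, ∑ i, sg (e i) * x i ≤ H e) :
    (d : ℝ) / 6 ≤ (∑ e, H e) / (2 : ℝ) ^ d := by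
  set W : Set (Fin d → ℝ) := WithLp.toLp 2 ⁻¹' V
  have hmp := PiLp.volume_preserving_toLp (Fin d)
  have hWm : MeasurableSet W := hVm.preimage hmp.measurable
  have hWv : 1 ≤ volume W := hV.trans_eq (hmp.measure_preimage hVm.nullMeasurableSet).symm
  have hWb : Bornology.IsBounded W := by
    obtain ⟨B, hB⟩ := hVb.exists_norm_le
    refine isBounded_iff_forall_norm_le.2 ⟨max B 0, fun x hx => (pi_norm_le_iff_of_nonneg (le_max_right _ _)).2 fun i => ?_⟩
    exact (PiLp.norm_apply_le (WithLp.toLp 2 x : Eu d) i).trans ((hB _ hx).trans (le_max_left _ _))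
  obtain ⟨u, S, hS, hmem⟩ := exists_dense_translate (show 0 < 100 by norm_num) hWm hWb hWv
  have hSne : S.Nonempty := Finset.card_pos.1 (lt_of_lt_of_le (by positivity) hS)
  have h := width_discrete d S hSne (fun e => 100 * (H e - ∑ i, sg (e i) * u i)) fun e z hz => by
    have h1 := hH e _ (hmem z hz)
    simp only [Nat.cast_ofNat, mul_add, sum_add_distrib] at h1
    have h2 : ∑ i, sg (e i) * ((z i : ℝ) / 100) = (∑ i, sg (e i) * (z i : ℝ)) / 100 := by
      rw [Finset.sum_div]; exact sum_congr rfl fun i _ => by ring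
    rw [h2] at h1
    linarith
  have hz : ∑ e : Fin d → Bool, ∑ i, sg (e i) * u i = 0 := by
    rw [sum_comm]; exact sum_eq_zero fun i _ => by rw [← sum_mul, sum_sg_eq_zero, zero_mul]
  rw [← mul_sum, sum_sub_distrib, hz, sub_zero,
    mul_div_assoc (100 : ℝ) (∑ e : Fin d → Bool, H e)] at h
  rcases Nat.eq_zero_or_pos d with rfl | hd
  · simp only [Nat.cast_zero, zero_mul, zero_div, mul_zero, sub_zero] at h ⊢
    linarith
  have hd' : (0 : ℝ) < d := Nat.cast_pos.2 hd
  have h100 : (100 : ℝ) ≤ Real.exp (Real.log S.card / d) := by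
    rw [← Real.exp_log (show (0 : ℝ) < 100 by norm_num), Real.exp_le_exp, le_div_iff₀ hd']
    calc Real.log 100 * d = Real.log ((100 : ℝ) ^ d) := by rw [Real.log_pow]; ring
      _ ≤ _ := Real.log_le_log (by positivity) (by exact_mod_cast hS)
  have h1 : (d : ℝ) * 100 / (2 * Real.exp 1) ≤ d * Real.exp (Real.log S.card / d) / (2 * Real.exp 1) := by
    gcongr
  have h2 : (d : ℝ) * 100 / 5.44 ≤ d * 100 / (2 * Real.exp 1) := by
    gcongr
    linarith [Real.exp_one_lt_d9]
  norm_num at h2
  linarith

end Vale.Agent.P160R.RM
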