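import Vale.Agent.P160R.RM.Station
import Vale.Agent.P160R.RM.Cube
import Vale.Agent.P160R.RM.Width

/-!
P160, reverse Minkowski: a near-maximiser with margin has polylogarithmic moment.
-/

namespace Vale.Agent.P160R.RM

open MeasureTheory ProbabilityTheory Matrix
open scoped RealInnerProductSpace

variable {d : ℕ}

/-- Changing signs of coordinates. -/
noncomputable def flipMap (e : Fin d → Bool) : Eu d ≃ₗᵢ[ℝ] Eu d where
  toFun x := WithLp.toLp 2 fun i => sg (e i) * x i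
  invFun x := WithLp.toLp 2 fun i => sg (e i) * x i
  map_add' x y := by ext i; simp [mul_add]
  map_smul' a x := by ext i; simp [mul_left_comm]
  left_inv x := by ext i; rcases h : e i <;> simp [sg, h]
  right_inv x := by ext i; rcases h : e i <;> simp [sg, h]
  norm_map' x := by
    refine (pow_left_inj₀ (norm_nonneg _) (norm_nonneg _) two_ne_zero).1 ?_
    simp only [EuclideanSpace.real_norm_sq_eq]
    refine Finset.sum_congr rfl fun i _ => ?_
    rcases h : e i <;> simp [sg, h]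

lemma flipMap_apply (e : Fin d → Bool) (x : Eu d) (i : Fin d) : flipMap e x i = sg (e i) * x i := rfl

lemma integral_flip (f : Eu d → ℝ) (hf : Continuous f) (e : Fin d → Bool) :
    ∫ x, f (flipMap e x) ∂(gam d) = ∫ x, f x ∂(gam d) := by
  conv_rhs => rw [gam, ← stdGaussian_map (flipMap e)]
  rw [integral_map (flipMap e).continuous.aemeasurable hf.aestronglyMeasurable]

/-- The norm at a unit vector is bounded by the moment. -/
lemma vnorm_pow_le {A : Fin d → Eu d} (hA : Big A) {p : ℕ} (hp : 2 ≤ p) (he : Even p) {v : Eu d}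
    (hv : ‖v‖ = 1) : vnorm A v ^ p ≤ vF p A := by
  set R : Eu d ≃ₗᵢ[ℝ] Eu d := Submodule.reflection (ℝ ∙ v)
  have hR : ∀ x, x + R x = (2 * ⟪v, x⟫) • v := fun x => by
    show x + Submodule.reflection (ℝ ∙ v) x = _
    rw [Submodule.reflection_singleton_apply]
    simp [hv]
    module
  have hpt : ∀ x, vnorm A v ^ p * |⟪v, x⟫| ^ p ≤ vnorm A x ^ p / 2 + vnorm A (R x) ^ p / 2 := fun x => by
    have e1 : |⟪v, x⟫| * vnorm A v ≤ (1 / 2) * vnorm A x + (1 / 2) * vnorm A (R x) := by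
      have h := vnorm_add_le hA x (R x)
      rw [hR, vnorm_smul hA, abs_mul, abs_two] at h
      linarith
    rw [← mul_pow, mul_comm]
    refine (pow_le_pow_left₀ (mul_nonneg (abs_nonneg _) (vnorm_nonneg hA _)) e1 p).trans ?_
    have h := (convexOn_pow p).2 (Set.mem_Ici.2 (vnorm_nonneg hA x))
      (Set.mem_Ici.2 (vnorm_nonneg hA (R x))) (by norm_num : (0 : ℝ) ≤ 1 / 2)
      (by norm_num : (0 : ℝ) ≤ 1 / 2) (by norm_num)
    simp only [smul_eq_mul] at h
    linarith
  have i1 := (integrable_vnorm_pow hA p).div_const 2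
  have i2 : Integrable (fun x => vnorm A (R x) ^ p / 2) (gam d) :=
    (integrable_vnorm_comp hA R.toContinuousLinearEquiv.toContinuousLinearMap p).div_const 2
  have i3 := (integrable_abs_inner_pow hv p).const_mul (vnorm A v ^ p)
  have h := integral_mono i3 (i1.add i2) hpt
  rw [integral_const_mul, integral_add' i1 i2, integral_div, integral_div,
    integral_abs_inner_pow hv] at h
  have e : ∫ x, vnorm A (R x) ^ p ∂(gam d) = vF p A := by
    conv_rhs => rw [vF, gam, ← stdGaussian_map R]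
    rw [integral_map (f := fun y => vnorm A y ^ p) R.continuous.aemeasurable
      ((continuous_vnorm hA).pow p).aestronglyMeasurable]
  rw [e, ← vF] at h
  have := mul_le_mul_of_nonneg_left (one_le_integral_abs_pow hp he) (pow_nonneg (vnorm_nonneg hA v) p)
  linarith

/-- The map built from the maximisers. -/
noncomputable def liftMap (a : Fin d → Eu d) : Eu d →L[ℝ] Eu d :=
  ∑ j, (EuclideanSpace.proj (𝕜 := ℝ) j).smulRight (a j)

lemma liftMap_apply (a : Fin d → Eu d) (x : Eu d) : liftMap a x = ∑ j, x j • a j := by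
  simp [liftMap]

lemma trace_liftMap (a : Fin d → Eu d) :
    LinearMap.trace ℝ (Eu d) (liftMap a : Eu d →ₗ[ℝ] Eu d) = ∑ j, a j j := by
  rw [LinearMap.trace_eq_matrix_trace ℝ (EuclideanSpace.basisFun (Fin d) ℝ).toBasis, Matrix.trace]
  refine Finset.sum_congr rfl fun j _ => ?_
  rw [Matrix.diag, LinearMap.toMatrix_apply]
  simp [liftMap_apply, PiLp.single_apply, ite_smul]

/-- The Gaussian moment of a map from its moment on the cube. -/
lemma integral_liftMap_le {A : Fin d → Eu d} (hA : Big A) (a : Fin d → Eu d) {p : ℕ} (hp : p ≠ 0) :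
    ∫ x, vnorm A (liftMap a x) ^ p ∂(gam d) ≤
      d * (4 * (p : ℝ) ^ p) *
        ((∑ e : Fin d → Bool, vnorm A (∑ i, sg (e i) • a i) ^ p) / (2 : ℝ) ^ d) := by
  set S := ∑ e : Fin d → Bool, vnorm A (∑ i, sg (e i) • a i) ^ p
  have hS : 0 ≤ S := Finset.sum_nonneg fun e _ => pow_nonneg (vnorm_nonneg hA _) p
  have hint := integrable_vnorm_comp hA (liftMap a) p
  have hcont : Continuous fun x => vnorm A (liftMap a x) ^ p :=
    ((continuous_vnorm hA).comp (liftMap a).continuous).pow p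
  have hflip : ∀ e, Integrable (fun x => vnorm A (liftMap a (flipMap e x)) ^ p) (gam d) := fun e =>
    integrable_vnorm_comp hA ((liftMap a).comp (flipMap e).toContinuousLinearEquiv.toContinuousLinearMap) p
  have hpt : ∀ x : Eu d, ∑ e, vnorm A (liftMap a (flipMap e x)) ^ p ≤ (∑ j, |x j| ^ p) * S := fun x => by
    rcases isEmpty_or_nonempty (Fin d) with hd | hd
    · have : ∀ y : Eu d, y = 0 := fun y => Subsingleton.elim _ _
      simp [liftMap_apply, hp, show vnorm A (0 : Eu d) = 0 from map_zero (vsemi hA)]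
    obtain ⟨j0, -, hj0⟩ := Finset.exists_max_image Finset.univ (fun j => |x j|) Finset.univ_nonempty
    have h := cube_contraction (vsemi hA) a (fun j => x j) (α := |x j0|)
      (fun i => hj0 i (Finset.mem_univ i)) p
    have e : ∀ e, vsemi hA (∑ i, (x i * sg (e i)) • a i) = vnorm A (liftMap a (flipMap e x)) := fun e => by
      rw [vsemi_apply, liftMap_apply]
      simp [flipMap_apply, mul_comm]
    simp only [e, vsemi_apply] at h
    exact h.trans (mul_le_mul_of_nonneg_right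
      (Finset.single_le_sum (fun j _ => pow_nonneg (abs_nonneg (x j)) p) (Finset.mem_univ j0)) hS)
  have hcoord : ∀ j : Fin d, ∫ x : Eu d, |x j| ^ p ∂(gam d) ≤ 4 * (p : ℝ) ^ p ∧
      Integrable (fun x : Eu d => |x j| ^ p) (gam d) := fun j => by
    have hv : ‖(EuclideanSpace.single j (1 : ℝ) : Eu d)‖ = 1 := by simp
    have h1 := integral_abs_inner_pow hv p
    have h2 := integrable_abs_inner_pow hv p
    simp only [EuclideanSpace.inner_single_left, map_one, one_mul] at h1 h2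
    exact ⟨h1.trans_le (integral_abs_pow_le p), h2⟩
  have h2d : (0 : ℝ) < 2 ^ d := by positivity
  rw [← mul_div_assoc, le_div_iff₀ h2d]
  calc (∫ x, vnorm A (liftMap a x) ^ p ∂(gam d)) * 2 ^ d
      = ∫ x, ∑ e, vnorm A (liftMap a (flipMap e x)) ^ p ∂(gam d) := by
        rw [integral_finsetSum _ fun e _ => hflip e,
          Finset.sum_congr rfl fun e _ => integral_flip _ hcont e, Finset.sum_const, nsmul_eq_mul]
        simp [mul_comm]
    _ ≤ ∫ x, (∑ j, |x j| ^ p) * S ∂(gam d) :=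
        integral_mono (integrable_finsetSum _ fun e _ => hflip e)
          ((integrable_finsetSum _ fun j _ => (hcoord j).2).mul_const _) hpt
    _ ≤ _ := by
        rw [integral_mul_const, integral_finsetSum _ fun j _ => (hcoord j).2]
        refine mul_le_mul_of_nonneg_right ?_ hS
        refine (Finset.sum_le_sum fun j _ => (hcoord j).1).trans_eq ?_
        simp

/-- The choice of the degree. -/
lemma cube_error {d p : ℕ} (hd : (d : ℝ) ≤ 2 ^ p) (hp : 2 ≤ p) :
    (64 * (p : ℝ) * d * (4 * ((16 * p ^ 2 : ℕ) : ℝ) ^ 2 + d + 1)) ^ p ≤ 4 ^ (16 * p ^ 2) := by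
  have hp2 : (p : ℝ) ≤ 2 ^ p := by exact_mod_cast (Nat.lt_two_pow_self).le
  have hp1 : (1 : ℝ) ≤ p := by exact_mod_cast one_le_two.trans hp
  have h1 : (1 : ℝ) ≤ 2 ^ p := one_le_pow₀ one_le_two
  have h11 : (64 : ℝ) ≤ 2 ^ (3 * p) := by
    calc (64 : ℝ) = 2 ^ (3 * 2) := by norm_num
      _ ≤ _ := pow_le_pow_right₀ one_le_two (by omega)
  have e1 : 4 * ((16 * p ^ 2 : ℕ) : ℝ) ^ 2 + d + 1 ≤ 2 ^ (10 * p) := by
    push_cast
    have h4 : (p : ℝ) ^ 4 ≤ (2 ^ p) ^ 4 := pow_le_pow_left₀ (by positivity) hp2 4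
    have h6 : (2 ^ p : ℝ) ≤ (2 ^ p) ^ 4 := le_self_pow₀ h1 (by norm_num)
    have h10 : (1026 : ℝ) ≤ 2 ^ (6 * p) := by
      calc (1026 : ℝ) ≤ 2 ^ (6 * 2) := by norm_num
        _ ≤ _ := pow_le_pow_right₀ one_le_two (by omega)
    calc 4 * (16 * (p : ℝ) ^ 2) ^ 2 + d + 1 ≤ 1026 * (2 ^ p) ^ 4 := by nlinarith
      _ ≤ 2 ^ (6 * p) * (2 ^ p) ^ 4 := mul_le_mul_of_nonneg_right h10 (by positivity)
      _ = 2 ^ (10 * p) := by rw [← pow_mul, ← pow_add]; congr 1; ring
  have e2 : 64 * (p : ℝ) * d ≤ 2 ^ (5 * p) := by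
    calc 64 * (p : ℝ) * d ≤ 2 ^ (3 * p) * 2 ^ p * 2 ^ p :=
          mul_le_mul (mul_le_mul h11 hp2 (by positivity) (by positivity)) hd (by positivity) (by positivity)
      _ = _ := by rw [← pow_add, ← pow_add]; congr 1; ring
  refine (pow_le_pow_left₀ (by positivity) (mul_le_mul e2 e1 (by positivity) (by positivity)) p).trans ?_
  rw [← pow_add, ← pow_mul, show (4 : ℝ) = 2 ^ 2 by norm_num, ← pow_mul]
  exact pow_le_pow_right₀ one_le_two (by nlinarith)

/-- The polylogarithmic constant. -/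
noncomputable def tRM (p : ℕ) : ℝ := 2 ^ 22 * (p : ℝ) ^ 5

/-- A near-maximiser with margin has polylogarithmic moment. -/
theorem interior_bound (hd : 1 ≤ d) {p : ℕ} (hp : 2 ≤ p) (he : Even p) (hdp : (d : ℝ) ≤ 2 ^ p) {B : ℝ}
    (hB0 : 0 < B) {η : ℝ} (hη : 0 < η) :
    ∃ ξ > 0, ∀ A : Fin d → Eu d, Big A → Margin η A →
      (∀ A' : Fin d → Eu d, Big A' → vF p A' ≤ B) → B - ξ ≤ vF p A → B ≤ tRM p ^ p := by
  have hp0 : p ≠ 0 := by omega
  have hd1 : (1 : ℝ) ≤ d := by exact_mod_cast hd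
  have hp1 : (1 : ℝ) ≤ p := by exact_mod_cast one_le_two.trans hp
  set Φ := B ^ ((p : ℝ)⁻¹) with hΦdef
  have hΦ : 0 < Φ := Real.rpow_pos_of_pos hB0 _
  have hΦp : Φ ^ p = B := Real.rpow_inv_natCast_pow hB0.le hp0
  set Rad := 64 * (p : ℝ) * d / Φ with hRad
  have hRad0 : 0 < Rad := by positivity
  set Λ := d + 6 * d * Rad
  obtain ⟨ξ, hξ, hst⟩ := stationary d hp0 hB0 hη (Λ := Λ) (by positivity)
  refine ⟨ξ, hξ, fun A hA hm hB hF => ?_⟩
  have hst' := hst A hA hm hB hF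
  -- the cell is round
  have hlow : ∀ v : Eu d, ‖v‖ = 1 → Φ ≤ 64 * p * d * vnorm A v := fun v hv => by
    set T : Eu d →L[ℝ] Eu d := (d : ℝ) • (innerSL ℝ v).smulRight v
    have htr : LinearMap.trace ℝ (Eu d) (T : Eu d →ₗ[ℝ] Eu d) = d := by
      show LinearMap.trace ℝ (Eu d) ((d : ℝ) • ((innerSL ℝ v : Eu d →ₗ[ℝ] ℝ).smulRight v)) = d
      rw [map_smul, LinearMap.trace_smulRight]
      simp [hv]
    have hTn : ‖T‖ ≤ Λ := by
      rw [norm_smul, ContinuousLinearMap.norm_smulRight_apply, innerSL_apply_norm, hv]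
      simp only [Λ, mul_one, Real.norm_eq_abs, Nat.abs_cast]
      nlinarith
    have h := hst' T htr hTn
    have e : ∀ x, vnorm A (T x) ^ p = ((d : ℝ) * vnorm A v) ^ p * |⟪v, x⟫| ^ p := fun x => by
      rw [show T x = ((d : ℝ) * ⟪v, x⟫) • v by simp [T, smul_smul], vnorm_smul hA, abs_mul,
        Nat.abs_cast, ← mul_pow]
      congr 1; ring
    simp only [e, integral_const_mul, integral_abs_inner_pow hv] at h
    have h2 : B / 8 ≤ 2 ^ p * (((d : ℝ) * vnorm A v) ^ p * (4 * (p : ℝ) ^ p)) := h.trans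
      (mul_le_mul_of_nonneg_left (mul_le_mul_of_nonneg_left (integral_abs_pow_le p)
        (pow_nonneg (mul_nonneg (Nat.cast_nonneg' d) (vnorm_nonneg hA v)) p)) (by positivity))
    refine (pow_le_pow_iff_left₀ hΦ.le
      (mul_nonneg (by positivity) (vnorm_nonneg hA v)) hp0).1 ?_
    rw [hΦp]
    have h32 : (32 : ℝ) ≤ 32 ^ p := le_self_pow₀ (by norm_num) hp0
    have hn : 0 ≤ ((d : ℝ) * vnorm A v) ^ p * (p : ℝ) ^ p :=
      mul_nonneg (pow_nonneg (mul_nonneg (Nat.cast_nonneg' d) (vnorm_nonneg hA v)) p) (by positivity)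
    calc B ≤ 32 * (2 ^ p * (((d : ℝ) * vnorm A v) ^ p * (p : ℝ) ^ p)) := by linarith
      _ ≤ 32 ^ p * (2 ^ p * (((d : ℝ) * vnorm A v) ^ p * (p : ℝ) ^ p)) := by
          gcongr
      _ = _ := by rw [← mul_pow, ← mul_pow, ← mul_pow]; congr 1; ring
  have hup : ∀ x, vnorm A x ≤ Φ * ‖x‖ := fun x => by
    rcases eq_or_ne x 0 with rfl | hx
    · simp [show vnorm A (0 : Eu d) = 0 from map_zero (vsemi hA)]
    have hv : ‖‖x‖⁻¹ • x‖ = 1 := by simp [norm_smul, hx]
    have h1 := (vnorm_pow_le hA hp he hv).trans (hB A hA)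
    rw [← hΦp, pow_le_pow_iff_left₀ (vnorm_nonneg hA _) hΦ.le hp0, vnorm_smul hA, abs_inv, abs_norm,
      inv_mul_le_iff₀ (norm_pos_iff.2 hx)] at h1
    linarith
  have hrad : ∀ x, vnorm A x ≤ 1 → ‖x‖ ≤ Rad := fun x hx => by
    rcases eq_or_ne x 0 with rfl | hx0
    · simp [hRad0.le]
    have hv : ‖‖x‖⁻¹ • x‖ = 1 := by simp [norm_smul, hx0]
    have h1 := hlow _ hv
    rw [vnorm_smul hA, abs_inv, abs_norm] at h1
    rw [hRad, le_div_iff₀ hΦ]
    have hxp := norm_pos_iff.2 hx0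
    calc ‖x‖ * Φ ≤ ‖x‖ * (64 * p * d * (‖x‖⁻¹ * vnorm A x)) := mul_le_mul_of_nonneg_left h1 hxp.le
      _ = 64 * p * d * vnorm A x := by field_simp
      _ ≤ 64 * p * d := mul_le_of_le_one_right (by positivity) hx
  -- maximisers on the cell
  set V := {x : Eu d | vnorm A x ≤ 1}
  have hVc : IsClosed V := isClosed_le (continuous_vnorm hA) continuous_const
  have hVb : Bornology.IsBounded V := (Metric.isBounded_closedBall (x := (0 : Eu d)) (r := Rad)).subset
    fun x hx => mem_closedBall_zero_iff.2 (hrad x hx)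
  have hV0 : (0 : Eu d) ∈ V := by simp [V, show vnorm A (0 : Eu d) = 0 from map_zero (vsemi hA)]
  have hmax : ∀ e : Fin d → Bool, ∃ x ∈ V, ∀ y ∈ V, ∑ i, sg (e i) * y i ≤ ∑ i, sg (e i) * x i := fun e =>
    (Metric.isCompact_of_isClosed_isBounded hVc hVb).exists_isMaxOn ⟨0, hV0⟩
      (f := fun x : Eu d => ∑ i, sg (e i) * x i) (by fun_prop)
  choose y hyV hy using hmax
  set W := (∑ e : Fin d → Bool, ∑ i, sg (e i) * y e i) / (2 : ℝ) ^ d with hWdef
  have hW : (d : ℝ) / 6 ≤ W := width_vol hVc.measurableSet hVb (one_le_volume_cell hA) _ hy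
  have hW0 : 0 < W := by linarith
  set a := fun j => coef y j
  have htr : LinearMap.trace ℝ (Eu d) (liftMap a : Eu d →ₗ[ℝ] Eu d) = W := by
    rw [trace_liftMap, hWdef, Finset.sum_comm, Finset.sum_div]
    refine Finset.sum_congr rfl fun j _ => ?_
    simp [a, coef, div_eq_inv_mul, Finset.sum_apply]
  have ha : ∀ j, ‖a j‖ ≤ Rad := fun j => by
    simp only [a, coef, norm_smul, norm_inv, norm_pow, Real.norm_two, Fintype.card_fin]
    rw [inv_mul_le_iff₀ (by positivity)]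
    refine (norm_sum_le _ _).trans ((Finset.sum_le_sum (g := fun _ => Rad) fun e _ => ?_).trans_eq ?_)
    · rw [norm_smul, show ‖sg (e j)‖ = 1 by unfold sg; split <;> simp, one_mul]
      exact hrad _ (hyV e)
    · simp
  set κ := (d : ℝ) / W
  have hκ0 : 0 ≤ κ := by positivity
  have hκ6 : κ ≤ 6 := by rw [div_le_iff₀ hW0]; linarith
  set T := κ • liftMap a
  have hTtr : LinearMap.trace ℝ (Eu d) (T : Eu d →ₗ[ℝ] Eu d) = d := by
    show LinearMap.trace ℝ (Eu d) (κ • (liftMap a : Eu d →ₗ[ℝ] Eu d)) = d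
    rw [map_smul, htr, smul_eq_mul, div_mul_cancel₀ _ hW0.ne']
  have hTn : ‖T‖ ≤ Λ := by
    refine (ContinuousLinearMap.opNorm_le_bound _ (by positivity) fun x => ?_ : ‖T‖ ≤ 6 * d * Rad).trans
      (by simp only [Λ]; linarith)
    simp only [T, _root_.smul_apply, liftMap_apply, norm_smul, Real.norm_eq_abs,
      abs_of_nonneg hκ0]
    calc κ * ‖∑ j, x j • a j‖ ≤ 6 * ∑ j : Fin d, ‖x‖ * Rad := by
          refine mul_le_mul hκ6 ((norm_sum_le _ _).trans (Finset.sum_le_sum fun j _ => ?_))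
            (norm_nonneg _) (by norm_num)
          rw [norm_smul]
          exact mul_le_mul (PiLp.norm_apply_le x j) (ha j) (norm_nonneg _) (norm_nonneg _)
      _ = 6 * d * Rad * ‖x‖ := by simp; ring
  have h := hst' T hTtr hTn
  have e : ∀ x, vnorm A (T x) ^ p = κ ^ p * vnorm A (liftMap a x) ^ p := fun x => by
    simp only [T, _root_.smul_apply, vnorm_smul hA, abs_of_nonneg hκ0, mul_pow]
  simp only [e, integral_const_mul] at h
  -- the cube
  set n := 16 * p ^ 2 with hn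
  have hcube := cube_projection (vsemi hA) hΦ.le hup y hyV (fun e => hrad _ (hyV e)) n p
    (Nat.one_le_iff_ne_zero.2 (by positivity)) hp
  simp only [vsemi_apply, Fintype.card_fin] at hcube
  have herr : (Φ * Rad * (4 * (n : ℝ) ^ 2 + d + 1)) ^ p / 4 ^ n ≤ 1 := by
    rw [div_le_one (by positivity), hRad, mul_div_cancel₀ _ hΦ.ne']
    exact cube_error hdp hp
  have hn1 : (1 : ℝ) ≤ 4 * (n : ℝ) ^ 2 := by
    have : (1 : ℝ) ≤ (n : ℝ) ^ 2 := one_le_pow₀ (by exact_mod_cast Nat.one_le_iff_ne_zero.2 (by positivity))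
    linarith
  set Q := (4 * (n : ℝ) ^ 2) ^ p with hQ
  have hQ1 : 1 ≤ Q := one_le_pow₀ hn1
  have hsum : (∑ e : Fin d → Bool, vnorm A (∑ i, sg (e i) • a i) ^ p) / (2 : ℝ) ^ d ≤ 2 ^ p * (2 * Q) :=
    hcube.trans (mul_le_mul_of_nonneg_left (by linarith) (by positivity))
  have h3 : B / 8 ≤ 2 ^ p * (6 ^ p * (2 ^ p * (4 * (p : ℝ) ^ p) * (2 ^ p * (2 * Q)))) := by
    refine h.trans (mul_le_mul_of_nonneg_left (mul_le_mul (pow_le_pow_left₀ hκ0 hκ6 p) ?_
      (integral_nonneg fun x => pow_nonneg (vnorm_nonneg hA _) p) (by positivity)) (by positivity))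
    refine (integral_liftMap_le hA a hp0).trans (mul_le_mul
      (mul_le_mul_of_nonneg_right hdp (by positivity)) hsum ?_ (by positivity))
    exact div_nonneg (Finset.sum_nonneg fun e _ => pow_nonneg (vnorm_nonneg hA _) p) (by positivity)
  have h64 : (64 : ℝ) ≤ 8 ^ p := by
    calc (64 : ℝ) = 8 ^ 2 := by norm_num
      _ ≤ _ := pow_le_pow_right₀ (by norm_num) hp
  calc B ≤ 64 * (2 ^ p * (6 ^ p * (2 ^ p * (p : ℝ) ^ p * (2 ^ p * Q)))) := by linarith
    _ ≤ 8 ^ p * (2 ^ p * (6 ^ p * (2 ^ p * (p : ℝ) ^ p * (2 ^ p * Q)))) := by gcongr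
    _ = (8 * (2 * (6 * (2 * p * (2 * (4 * (n : ℝ) ^ 2)))))) ^ p := by simp only [mul_pow, hQ]
    _ ≤ tRM p ^ p := by
        refine pow_le_pow_left₀ (by positivity) ?_ p
        rw [tRM, hn]; push_cast; nlinarith [pow_nonneg (Nat.cast_nonneg p : (0 : ℝ) ≤ p) 5]

end Vale.Agent.P160R.RM
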