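import Vale.Agent.P160R.RM.Voronoi

/-!
P160, reverse Minkowski: splitting a lattice along a sublattice into the sublattice and the quotient.
-/

namespace Vale.Agent.P160R.RM

open MeasureTheory Matrix
open scoped RealInnerProductSpace

variable {d r : ℕ}

/-- A sublattice spanned up to saturation by `Z`, and the quotient by it, as lattices in coordinates. -/
structure Split (A : Fin d → Eu d) (Z : Fin r → Fin d → ℤ) where
  /-- The rank of the quotient. -/
  s : ℕ
  rank : r + s = d
  /-- A basis adapted to the sublattice. -/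
  U : Module.Basis (Fin r ⊕ Fin s) ℤ (Fin d → ℤ)
  mem : ∀ c, Z c ∈ Submodule.span ℤ (Set.range fun i => U (Sum.inl i))
  /-- Coordinates along the sublattice. -/
  p1 : Eu d →L[ℝ] Eu r
  /-- Coordinates across the sublattice. -/
  p2 : Eu d →L[ℝ] Eu s
  map1 : (gam d).map p1 = gam r
  map2 : (gam d).map p2 = gam s
  norm2 : ∀ x, ‖p2 x‖ ≤ ‖x‖
  kill : ∀ i, p2 (lvec A (U (Sum.inl i))) = 0
  gram1 : ∀ (m : ℕ) (W : Fin m → Fin r → ℤ),
    (gram ℝ fun c => lvec (fun i => p1 (lvec A (U (Sum.inl i)))) (W c)) =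
      gram ℝ fun c => lvec A (∑ i, W c i • U (Sum.inl i))
  det2 : ∀ (m : ℕ) (W : Fin m → Fin s → ℤ),
    (gram ℝ (Sum.elim (fun i => lvec A (U (Sum.inl i)))
      (fun c => lvec A (∑ j, W c j • U (Sum.inr j))))).det =
      (gram ℝ fun i => lvec A (U (Sum.inl i))).det *
        (gram ℝ fun c => lvec (fun j => p2 (lvec A (U (Sum.inr j)))) (W c)).det

/-- The basis of the sublattice in coordinates. -/
noncomputable def Split.sub {A : Fin d → Eu d} {Z : Fin r → Fin d → ℤ} (S : Split A Z) :
    Fin r → Eu r := fun i => S.p1 (lvec A (S.U (Sum.inl i)))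

/-- The basis of the quotient in coordinates. -/
noncomputable def Split.quo {A : Fin d → Eu d} {Z : Fin r → Fin d → ℤ} (S : Split A Z) :
    Fin S.s → Eu S.s := fun j => S.p2 (lvec A (S.U (Sum.inr j)))

lemma exists_split {A : Fin d → Eu d} (hA : LinearIndependent ℝ A) (Z : Fin r → Fin d → ℤ)
    (hZ : LinearIndependent ℤ Z) : Nonempty (Split A Z) := by
  obtain ⟨s, U, hmem⟩ := exists_saturation Z hZ
  have hrank : r + s = d := by
    have h := Module.finrank_eq_card_basis U
    simpa using h.symm
  set a : Fin r → Eu d := fun i => lvec A (U (Sum.inl i))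
  set W : Submodule ℝ (Eu d) := Submodule.span ℝ (Set.range a)
  have ha : LinearIndependent ℝ a := by
    have h1 : LinearIndependent ℝ fun i : Fin r => fun k => ((U (Sum.inl i) k : ℤ) : ℝ) := by
      have h2 := (U.linearIndependent.comp Sum.inl Sum.inl_injective)
      have e : (fun i : Fin r => fun k => ((U (Sum.inl i) k : ℤ) : ℝ)) =
          fun i => (algebraMap ℤ ℝ) ∘ (U (Sum.inl i)) := rfl
      rw [e]
      exact (linearIndependent_algebraMap_comp_iff).2 h2
    have h3 := h1.map' (Fintype.linearCombination ℝ A) (LinearMap.ker_eq_bot.2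
      (linearIndependent_iff_injective_fintypeLinearCombination.1 hA))
    convert h3 using 1
    · funext i
      simp [a, lvec, Fintype.linearCombination_apply]
    all_goals rfl
  have hW : Module.finrank ℝ W = r := by
    rw [show W = Submodule.span ℝ (Set.range a) from rfl, finrank_span_eq_card ha, Fintype.card_fin]
  have hW' : Module.finrank ℝ Wᗮ = s := by
    have h := W.finrank_add_finrank_orthogonal
    rw [finrank_euclideanSpace_fin] at h
    omega
  set b1 : OrthonormalBasis (Fin r) ℝ W := (stdOrthonormalBasis ℝ W).reindex (finCongr hW)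
  set b2 : OrthonormalBasis (Fin s) ℝ Wᗮ := (stdOrthonormalBasis ℝ Wᗮ).reindex (finCongr hW')
  set e1 : Fin r → Eu d := fun i => (b1 i : Eu d)
  set e2 : Fin s → Eu d := fun i => (b2 i : Eu d)
  have he1 : Orthonormal ℝ e1 := b1.orthonormal.comp_linearIsometry W.subtypeₗᵢ
  have he2 : Orthonormal ℝ e2 := b2.orthonormal.comp_linearIsometry Wᗮ.subtypeₗᵢ
  have hmemW : ∀ x ∈ W, ∑ i, ⟪e1 i, x⟫ • e1 i = x := fun x hx => by
    have h := congrArg (fun y : W => (y : Eu d)) (b1.sum_repr' ⟨x, hx⟩)
    simpa [e1, Submodule.coe_inner] using h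
  have hmemW' : ∀ x ∈ Wᗮ, ∑ i, ⟪e2 i, x⟫ • e2 i = x := fun x hx => by
    have h := congrArg (fun y : Wᗮ => (y : Eu d)) (b2.sum_repr' ⟨x, hx⟩)
    simpa [e2, Submodule.coe_inner] using h
  have hcoords : ∀ x ∈ W, ∀ y ∈ W, ⟪coords e1 x, coords e1 y⟫ = ⟪x, y⟫ := fun x _ y hy => by
    rw [inner_coords]; simp only [coords_apply]; rw [hmemW y hy]
  have hcoords' : ∀ x ∈ Wᗮ, ∀ y ∈ Wᗮ, ⟪coords e2 x, coords e2 y⟫ = ⟪x, y⟫ := fun x _ y hy => by
    rw [inner_coords]; simp only [coords_apply]; rw [hmemW' y hy]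
  have hkill : ∀ x ∈ W, coords e2 x = 0 := fun x hx => by
    ext i
    rw [coords_apply]
    exact Submodule.inner_left_of_mem_orthogonal hx (b2 i).2
  have haW : ∀ i, a i ∈ W := fun i => Submodule.subset_span ⟨i, rfl⟩
  refine ⟨{
    s := s
    rank := hrank
    U := U
    mem := hmem
    p1 := coords e1
    p2 := coords e2
    map1 := gam_map_coords he1
    map2 := gam_map_coords he2
    norm2 := fun x => ?_
    kill := fun i => hkill _ (haW i)
    gram1 := fun m T => ?_
    det2 := fun m T => ?_ }⟩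
  · refine (pow_le_pow_iff_left₀ (norm_nonneg _) (norm_nonneg _) two_ne_zero).1 ?_
    rw [EuclideanSpace.real_norm_sq_eq]
    simp only [coords_apply]
    exact (by simpa [sq_abs] using he2.sum_inner_products_le (s := Finset.univ) x)
  · ext c c'
    have e : ∀ c, lvec (fun i => coords e1 (a i)) (T c) =
        coords e1 (lvec A (∑ i, T c i • U (Sum.inl i))) := fun c => by
      rw [lvec_sum, map_sum]
      simp [lvec, a]
    simp only [gram_apply]
    rw [e, e]
    have hm : ∀ c, lvec A (∑ i, T c i • U (Sum.inl i)) ∈ W := fun c => by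
      rw [lvec_sum]
      exact sum_mem fun i _ => W.smul_mem _ (haW i)
    exact hcoords _ (hm c) _ (hm c')
  · set b : Fin m → Eu d := fun c => lvec A (∑ j, T c j • U (Sum.inr j))
    have hproj : ∀ c, ∃ C : Fin r → ℝ, ∑ i, C i • a i = ∑ i, ⟪e1 i, b c⟫ • e1 i := fun c =>
      (Submodule.mem_span_range_iff_exists_fun ℝ).1
        (sum_mem fun i _ => W.smul_mem _ (b1 i).2)
    choose C hC using hproj
    have hres : ∀ c, b c - ∑ i, C c i • a i ∈ Wᗮ := fun c => by
      rw [hC, Submodule.mem_orthogonal]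
      intro u hu
      rw [← hmemW u hu, sum_inner]
      simp [real_inner_smul_left, inner_residual he1]
    rw [det_gram_sum a b (Matrix.of fun i c => C c i)
      fun i c => Submodule.inner_right_of_mem_orthogonal (haW i) (hres c)]
    congr 2
    ext c c'
    have e : ∀ c, lvec (fun j => coords e2 (lvec A (U (Sum.inr j)))) (T c) =
        coords e2 (b c - ∑ i, C c i • a i) := fun c => by
      rw [map_sub, hkill _ (sum_mem fun i _ => W.smul_mem _ (haW i)), sub_zero]
      simp only [b]
      rw [lvec_sum, map_sum]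
      simp [lvec]
    simp only [gram_apply]
    rw [e, e, hcoords' _ (hres c) _ (hres c')]
    simp

variable {A : Fin d → Eu d} {Z : Fin r → Fin d → ℤ}

lemma Split.big_sub (hA : Big A) (S : Split A Z) : Big S.sub := fun m W hW => by
  have h := hA m (fun c => ∑ i, W c i • S.U (Sum.inl i)) (by
    refine Fintype.linearIndependent_iff.2 fun g hg => Fintype.linearIndependent_iff.1 hW g ?_
    funext i
    have h2 : ∑ i, (∑ c, g c * W c i) • S.U (Sum.inl i) = 0 := by
      rw [← hg]
      simp only [Finset.sum_smul, Finset.smul_sum, smul_smul]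
      exact Finset.sum_comm
    have := Fintype.linearIndependent_iff.1
      (S.U.linearIndependent.comp Sum.inl Sum.inl_injective) _ h2 i
    simpa using this)
  rw [← S.gram1] at h
  exact h

/-- The adapted basis of a lifted sublattice of the quotient is independent. -/
lemma Split.indep_lift (S : Split A Z) {m : ℕ} {W : Fin m → Fin S.s → ℤ}
    (hW : LinearIndependent ℤ W) :
    LinearIndependent ℤ (Sum.elim (fun i => S.U (Sum.inl i)) fun c => ∑ j, W c j • S.U (Sum.inr j)) := by
  refine Fintype.linearIndependent_iff.2 fun g hg => ?_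
  have h2 : ∑ i : Fin r ⊕ Fin S.s, Sum.elim (fun i => g (Sum.inl i))
      (fun j => ∑ c, g (Sum.inr c) * W c j) i • S.U i = 0 := by
    rw [← hg, Fintype.sum_sum_type, Fintype.sum_sum_type]
    simp only [Sum.elim_inl, Sum.elim_inr, Finset.sum_smul, Finset.smul_sum, smul_smul]
    congr 1
    exact Finset.sum_comm
  have h3 := Fintype.linearIndependent_iff.1 S.U.linearIndependent _ h2
  have h4 : ∀ c, g (Sum.inr c) = 0 := Fintype.linearIndependent_iff.1 hW _ (funext fun j => by
    simpa using h3 (Sum.inr j))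
  rintro (i | c)
  · simpa using h3 (Sum.inl i)
  · exact h4 c

/-- A lower bound on the determinants of the quotient. -/
lemma Split.det_quo_ge (S : Split A Z) {μ : ℝ}
    (hA : ∀ (r : ℕ) (Z : Fin r → Fin d → ℤ), LinearIndependent ℤ Z →
      μ ≤ (gram ℝ fun c => lvec A (Z c)).det)
    {m : ℕ} {W : Fin m → Fin S.s → ℤ} (hW : LinearIndependent ℤ W) :
    μ ≤ (gram ℝ fun i => lvec A (S.U (Sum.inl i))).det *
      (gram ℝ fun c => lvec S.quo (W c)).det := by
  rw [show S.quo = fun j => S.p2 (lvec A (S.U (Sum.inr j))) from rfl, ← S.det2]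
  have h := hA (r + m) ((Sum.elim (fun i => S.U (Sum.inl i))
    fun c => ∑ j, W c j • S.U (Sum.inr j)) ∘ finSumFinEquiv.symm)
    ((S.indep_lift hW).comp _ finSumFinEquiv.symm.injective)
  refine h.trans_eq ?_
  rw [← det_submatrix_equiv_self (finSumFinEquiv (m := r) (n := m))]
  congr 1
  ext i j
  simp only [submatrix_apply, gram_apply, Function.comp_apply, Equiv.symm_apply_apply]
  cases i <;> cases j <;> rfl

lemma lvec_smul_basis {k : ℕ} (c : ℝ) (B : Fin k → Eu k) (z : Fin k → ℤ) :
    lvec (fun j => c • B j) z = c • lvec B z := by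
  simp [lvec, Finset.smul_sum, smul_comm c]

/-- The quotient by a sublattice of determinant at most `δ`, dilated by `δ`. -/
lemma Split.big_quo (hA : Big A) (S : Split A Z) (hZ : LinearIndependent ℤ Z) {δ : ℝ} (hδ : 1 ≤ δ)
    (hdet : (gram ℝ fun c => lvec A (Z c)).det ≤ δ) : Big fun j => δ • S.quo j := by
  intro m W hW
  have hle := (det_gram_saturation_le A Z _ hZ S.mem).trans hdet
  have h := S.det_quo_ge hA hW
  have hnn := (posSemidef_gram ℝ (fun c => lvec S.quo (W c))).det_nonneg
  rcases Nat.eq_zero_or_pos m with rfl | hm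
  · simp
  have e : (fun c => lvec (fun j => δ • S.quo j) (W c)) =
      (δ • LinearMap.id : Eu S.s →ₗ[ℝ] Eu S.s) ∘ fun c => lvec S.quo (W c) := by
    funext c; simp [lvec_smul_basis]
  rw [e]
  refine le_trans ?_ (det_gram_map_ge _ (zero_le_one.trans hδ) (fun x => le_of_eq ?_) _)
  · rw [Fintype.card_fin]
    have h2 : δ ≤ (δ ^ 2) ^ m :=
      le_trans (by nlinarith) (le_self_pow₀ (one_le_pow₀ hδ) hm.ne')
    nlinarith [mul_le_mul_of_nonneg_right hle hnn, mul_le_mul_of_nonneg_right h2 hnn]
  · simp [norm_smul, abs_of_nonneg (zero_le_one.trans hδ)]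

/-- The moment is subadditive over a sublattice of small determinant and its quotient. -/
lemma Split.vF_le (hA : Big A) (S : Split A Z) (hZ : LinearIndependent ℤ Z) {δ : ℝ} (hδ : 1 ≤ δ)
    (hdet : (gram ℝ fun c => lvec A (Z c)).det ≤ δ) {p : ℕ} (hp : p ≠ 0) :
    vF p A ≤ vF p S.sub + δ ^ p * vF p fun j => δ • S.quo j := by
  have h1 := S.big_sub hA
  have h2 := S.big_quo hA hZ hδ hdet
  set B2 := fun j => δ • S.quo j
  set f : Eu d → ℝ := fun x => max (vnorm S.sub (S.p1 x)) (δ * vnorm B2 (S.p2 x))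
  have hδ0 : 0 < δ := zero_lt_one.trans_le hδ
  have hc : Continuous f := ((continuous_vnorm h1).comp S.p1.continuous).max
    (continuous_const.mul ((continuous_vnorm h2).comp S.p2.continuous))
  have hi1 : Integrable (fun x => vnorm S.sub (S.p1 x) ^ p) (gam d) :=
    (integrable_map_measure (f := S.p1) (g := fun y => vnorm S.sub y ^ p)
      ((continuous_vnorm h1).pow p).aestronglyMeasurable S.p1.continuous.aemeasurable).1
      (by rw [S.map1]; exact integrable_vnorm_pow h1 p)
  have hi2 : Integrable (fun x => δ ^ p * vnorm B2 (S.p2 x) ^ p) (gam d) :=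
    ((integrable_map_measure (f := S.p2) (g := fun y => vnorm B2 y ^ p)
      ((continuous_vnorm h2).pow p).aestronglyMeasurable S.p2.continuous.aemeasurable).1
      (by rw [S.map2]; exact integrable_vnorm_pow h2 p)).const_mul _
  have hle : ∀ x, f x ^ p ≤ vnorm S.sub (S.p1 x) ^ p + δ ^ p * vnorm B2 (S.p2 x) ^ p := fun x => by
    rw [← mul_pow]
    have n1 := pow_nonneg (vnorm_nonneg h1 (S.p1 x)) p
    have n2 := pow_nonneg (mul_nonneg hδ0.le (vnorm_nonneg h2 (S.p2 x))) p
    simp only [f]
    rcases max_choice (vnorm S.sub (S.p1 x)) (δ * vnorm B2 (S.p2 x)) with h | h <;> rw [h] <;> linarith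
  have hf0 : ∀ x, 0 ≤ f x := fun x => (vnorm_nonneg h1 _).trans (le_max_left _ _)
  have hfi : Integrable (fun x => f x ^ p) (gam d) := Integrable.mono' (hi1.add hi2)
    (hc.pow p).aestronglyMeasurable (Filter.Eventually.of_forall fun x => by
      rw [Real.norm_eq_abs, abs_of_nonneg (pow_nonneg (hf0 x) p)]; exact hle x)
  refine (vF_le_of_pack hA hp hc.measurable hf0 hfi fun s hs x z hx hxz => ?_).trans ?_
  · simp only [f, max_lt_iff] at hx hxz
    set z2 : Fin S.s → ℤ := fun j => S.U.repr z (Sum.inr j)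
    set z1 : Fin r → ℤ := fun i => S.U.repr z (Sum.inl i)
    have e : lvec A z = ∑ i, (z1 i : ℝ) • lvec A (S.U (Sum.inl i)) +
        ∑ j, (z2 j : ℝ) • lvec A (S.U (Sum.inr j)) := by
      conv_lhs => rw [← S.U.sum_repr z]
      rw [lvec_sum, Fintype.sum_sum_type]
    have e2 : S.p2 (x + s • lvec A z) = S.p2 x + (s / δ) • lvec B2 z2 := by
      rw [lvec_smul_basis, smul_smul, div_mul_cancel₀ _ hδ0.ne', map_add, map_smul, e, map_add,
        map_sum, map_sum]
      simp only [map_smul, S.kill, smul_zero, Finset.sum_const_zero, zero_add]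
      rfl
    rw [e2] at hxz
    have hz2 : z2 = 0 := vnorm_pack h2
      ((lt_div_iff₀' hδ0).2 hx.2) ((lt_div_iff₀' hδ0).2 hxz.2)
    have e1 : S.p1 (x + s • lvec A z) = S.p1 x + s • lvec S.sub z1 := by
      rw [map_add, map_smul, e]
      simp only [hz2, Pi.zero_apply, Int.cast_zero, zero_smul, Finset.sum_const_zero, add_zero,
        map_sum, map_smul]
      rfl
    rw [e1] at hxz
    have hz1 : z1 = 0 := vnorm_pack h1 hx.1 hxz.1
    refine S.U.repr.injective (Finsupp.ext fun k => ?_)
    rcases k with i | j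
    · simpa [z1] using congrFun hz1 i
    · simpa [z2] using congrFun hz2 j
  · refine (integral_mono hfi (hi1.add hi2) hle).trans_eq ?_
    simp only [Pi.add_apply]
    rw [integral_add hi1 hi2, integral_const_mul, vF, vF, ← S.map1, ← S.map2,
      integral_map (f := fun y => vnorm S.sub y ^ p) S.p1.continuous.aemeasurable
        ((continuous_vnorm h1).pow p).aestronglyMeasurable,
      integral_map (f := fun y => vnorm B2 y ^ p) S.p2.continuous.aemeasurable
        ((continuous_vnorm h2).pow p).aestronglyMeasurable]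

end Vale.Agent.P160R.RM
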