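import Vale.Agent.P160R.RM.Interior
import Vale.Agent.P160R.RM.Split

/-!
P160, reverse Minkowski: the moment of the Voronoi norm is polylogarithmic for every lattice all of
whose sublattices have determinant at least one.
-/

namespace Vale.Agent.P160R.RM

open MeasureTheory Matrix

/-- The moment of the Voronoi norm. -/
theorem vF_bound {p : ℕ} (hp : 2 ≤ p) (he : Even p) {η : ℝ} (hη : 0 < η) :
    ∀ d : ℕ, (d : ℝ) ≤ 2 ^ p → ∀ A : Fin d → Eu d, Big A →
      vF p A ≤ d * tRM p ^ p * (1 + η) ^ (p * d) := by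
  intro d
  induction d using Nat.strong_induction_on with
  | _ d ih =>
    intro hdp A hA
    have hp0 : p ≠ 0 := by omega
    rcases Nat.eq_zero_or_pos d with rfl | hd
    · have h0 : ∀ x : Eu 0, vnorm A x = 0 := fun x => by
        rw [Subsingleton.elim x 0]; exact map_zero (vsemi hA)
      simp [vF, h0, hp0]
    set bnd := (d : ℝ) * tRM p ^ p * (1 + η) ^ (p * d)
    have hη1 : (1 : ℝ) ≤ 1 + η := by linarith
    have ht : 0 ≤ tRM p ^ p := pow_nonneg (by unfold tRM; positivity) p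
    have hd1 : (1 : ℝ) ≤ d := by exact_mod_cast hd
    have hbnd : tRM p ^ p ≤ bnd := by
      calc tRM p ^ p = 1 * tRM p ^ p * 1 := by ring
        _ ≤ bnd := by
          refine mul_le_mul (mul_le_mul_of_nonneg_right hd1 ht) (one_le_pow₀ hη1) zero_le_one
            (by positivity)
    by_contra hcon
    push Not at hcon
    set S := {F : ℝ | ∃ A' : Fin d → Eu d, Big A' ∧ F = vF p A'}
    have hS : BddAbove S := ⟨2 ^ p * ∫ x, ‖x‖ ^ p ∂(gam d), by
      rintro _ ⟨A', hA', rfl⟩
      rw [vF, ← integral_const_mul]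
      refine integral_mono (integrable_vnorm_pow hA' p) ((integrable_norm_pow d p).const_mul _) fun x => ?_
      rw [← mul_pow]
      exact pow_le_pow_left₀ (vnorm_nonneg hA' x) (vnorm_le_two hA' x) p⟩
    set B := sSup S
    have hB : ∀ A' : Fin d → Eu d, Big A' → vF p A' ≤ B := fun A' h => le_csSup hS ⟨A', h, rfl⟩
    have hBb : bnd < B := hcon.trans_le (hB A hA)
    have hB0 : 0 < B := lt_of_le_of_lt (ht.trans hbnd) hBb
    obtain ⟨ξ, hξ, hint⟩ := interior_bound hd hp he hdp hB0 hη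
    obtain ⟨F, ⟨A₀, hA₀, rfl⟩, hF⟩ := exists_lt_of_lt_csSup (s := S) ⟨_, A, hA, rfl⟩
      (show B - min ξ (B - bnd) < sSup S from sub_lt_self _ (lt_min hξ (sub_pos.2 hBb)))
    have hmin1 := min_le_left ξ (B - bnd)
    have hmin2 := min_le_right ξ (B - bnd)
    by_cases hm : Margin η A₀
    · linarith [hint A₀ hA₀ hm hB (by linarith)]
    simp only [Margin, not_forall, not_lt] at hm
    obtain ⟨r, Z, hZ, hr1, hrd, hdet⟩ := hm
    obtain ⟨S⟩ := exists_split hA₀.indep Z hZ
    have hrank := S.rank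
    have h := S.vF_le hA₀ hZ hη1 hdet hp0
    have hcast : ∀ k ≤ d, (k : ℝ) ≤ 2 ^ p := fun k hk =>
      le_trans (by exact_mod_cast hk) hdp
    have h1 := ih r hrd (hcast r hrd.le) _ (S.big_sub hA₀)
    have h2 := ih S.s (by omega) (hcast S.s (by omega)) _ (S.big_quo hA₀ hZ hη1 hdet)
    have e1 : (1 + η) ^ (p * r) ≤ (1 + η) ^ (p * d) :=
      pow_le_pow_right₀ hη1 (Nat.mul_le_mul_left p hrd.le)
    have e2 : (1 + η) ^ p * (1 + η) ^ (p * S.s) ≤ (1 + η) ^ (p * d) := by
      rw [← pow_add]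
      refine pow_le_pow_right₀ hη1 ?_
      calc p + p * S.s = p * (1 + S.s) := by ring
        _ ≤ p * d := Nat.mul_le_mul_left p (by omega)
    have hds : (r : ℝ) + (S.s : ℝ) = d := by exact_mod_cast hrank
    have h3 : vF p A₀ ≤ bnd := by
      calc vF p A₀ ≤ _ := h
        _ ≤ r * tRM p ^ p * (1 + η) ^ (p * r) +
            (1 + η) ^ p * (S.s * tRM p ^ p * (1 + η) ^ (p * S.s)) := by
          exact add_le_add h1 (mul_le_mul_of_nonneg_left h2 (by positivity))
        _ = r * tRM p ^ p * (1 + η) ^ (p * r) +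
            S.s * tRM p ^ p * ((1 + η) ^ p * (1 + η) ^ (p * S.s)) := by ring
        _ ≤ r * tRM p ^ p * (1 + η) ^ (p * d) + S.s * tRM p ^ p * (1 + η) ^ (p * d) :=
          add_le_add (mul_le_mul_of_nonneg_left e1 (by positivity))
            (mul_le_mul_of_nonneg_left e2 (by positivity))
        _ = bnd := by rw [← add_mul, ← add_mul, hds]
    linarith

/-- Short vectors of a lattice whose sublattices all have determinant at least one are few. -/
theorem count_bound {d : ℕ} {A : Fin d → Eu d} (hA : Big A) {R : ℝ} (T : Finset (Fin d → ℤ))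
    (hT : ∀ z ∈ T, ‖lvec A z‖ ^ 2 ≤ R) :
    (T.card : ℝ) ≤
      3 / 2 * Real.exp ((18 * tRM (2 * Nat.log 2 (d + 2) + 2)) ^ 2 * R / 2) := by
  set l := Nat.log 2 (d + 2)
  set p := 2 * l + 2 with hp
  have hp2 : 2 ≤ p := by omega
  have he : Even p := ⟨l + 1, by omega⟩
  have hdp : (d : ℝ) ≤ 2 ^ p := by
    have h : d + 2 < 2 ^ (l + 1) := Nat.lt_pow_succ_log_self one_lt_two (d + 2)
    have h2 : 2 ^ (l + 1) ≤ 2 ^ p := Nat.pow_le_pow_right two_pos (by omega)
    have : d ≤ 2 ^ p := by omega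
    exact_mod_cast this
  set η : ℝ := (((p * d : ℕ) : ℝ) + 1)⁻¹ with hηdef
  have hη : 0 < η := by positivity
  have hF := vF_bound hp2 he hη d hdp A hA
  have he3 : (1 + η) ^ (p * d) ≤ 3 := by
    have h1 : (1 + η) ^ (p * d) ≤ Real.exp (((p * d : ℕ) : ℝ) * η) := by
      rw [Real.exp_nat_mul]
      exact pow_le_pow_left₀ (by positivity) (by linarith [Real.add_one_le_exp η]) _
    have h2 : ((p * d : ℕ) : ℝ) * η ≤ 1 := by
      rw [hηdef, mul_inv_le_iff₀ (by positivity)]; linarith
    exact h1.trans ((Real.exp_le_exp.2 h2).trans (by linarith [Real.exp_one_lt_d9]))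
  have ht : 0 < tRM p := by unfold tRM; positivity
  refine card_short_le hA (p := p) (by positivity) ?_ R T hT
  calc 3 * vF p A ≤ 3 * (d * tRM p ^ p * 3) := by
        refine mul_le_mul_of_nonneg_left (hF.trans (mul_le_mul_of_nonneg_left he3 (by positivity))) ?_
        norm_num
    _ = 9 * d * tRM p ^ p := by ring
    _ ≤ 9 ^ p * 2 ^ p * tRM p ^ p := by
        gcongr
        exact le_self_pow₀ (by norm_num) (by omega)
    _ = (18 * tRM p) ^ p := by rw [← mul_pow, ← mul_pow]; norm_num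

end Vale.Agent.P160R.RM
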