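import Vale.Agent.P160R.RM.Voronoi

/-!
P160, reverse Minkowski: small traceless perturbations of a lattice.
-/

namespace Vale.Agent.P160R.RM

open Matrix Finset
open scoped RealInnerProductSpace

lemma abs_prod_one_add_sub {ι : Type*} (s : Finset ι) (a : ι → ℝ) {α : ℝ} (hα : 0 ≤ α)
    (ha : ∀ i ∈ s, |a i| ≤ α) :
    |∏ i ∈ s, (1 + a i) - 1 - ∑ i ∈ s, a i| ≤ (s.card : ℝ) ^ 2 * α ^ 2 * (1 + α) ^ s.card := by
  classical
  induction s using Finset.induction_on with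
  | empty => simp
  | @insert j s hj ih =>
    rw [prod_insert hj, sum_insert hj, card_insert_of_notMem hj]
    have h := ih fun i hi => ha i (mem_insert_of_mem hi)
    have hj' := ha j (mem_insert_self j s)
    have hs : |∑ i ∈ s, a i| ≤ s.card * α := (abs_sum_le_sum_abs _ _).trans
      ((sum_le_card_nsmul _ _ _ fun i hi => ha i (mem_insert_of_mem hi)).trans_eq (nsmul_eq_mul _ _))
    have h1 : |1 + a j| ≤ 1 + α := (abs_add_le _ _).trans (by rw [abs_one]; linarith)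
    have hp : (1 : ℝ) ≤ (1 + α) ^ (s.card + 1) := one_le_pow₀ (by linarith)
    calc |(1 + a j) * ∏ i ∈ s, (1 + a i) - 1 - (a j + ∑ i ∈ s, a i)|
        = |(1 + a j) * (∏ i ∈ s, (1 + a i) - 1 - ∑ i ∈ s, a i) + a j * ∑ i ∈ s, a i| := by
          ring_nf
      _ ≤ (1 + α) * ((s.card : ℝ) ^ 2 * α ^ 2 * (1 + α) ^ s.card) + α * (s.card * α) := by
          refine (abs_add_le _ _).trans (add_le_add ?_ ?_) <;> rw [abs_mul]
          · exact mul_le_mul h1 h (abs_nonneg _) (by linarith)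
          · exact mul_le_mul hj' hs (abs_nonneg _) hα
      _ ≤ _ := by
          have e : (1 + α) * ((s.card : ℝ) ^ 2 * α ^ 2 * (1 + α) ^ s.card) =
              (s.card : ℝ) ^ 2 * α ^ 2 * (1 + α) ^ (s.card + 1) := by ring
          rw [e]
          push_cast
          nlinarith [mul_nonneg (mul_nonneg (Nat.cast_nonneg s.card : (0 : ℝ) ≤ s.card) (sq_nonneg α))
            (sub_nonneg.2 hp), mul_nonneg (sq_nonneg α) (by linarith : (0 : ℝ) ≤ (1 + α) ^ (s.card + 1)),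
            mul_nonneg (mul_nonneg (Nat.cast_nonneg s.card : (0 : ℝ) ≤ s.card) (sq_nonneg α))
              (by linarith : (0 : ℝ) ≤ (1 + α) ^ (s.card + 1))]

/-- The determinant near the identity, to second order. -/
lemma det_one_add_small (d : ℕ) {Λ : ℝ} (hΛ : 0 ≤ Λ) :
    ∃ K, 0 ≤ K ∧ ∀ (X : Matrix (Fin d) (Fin d) ℝ), (∀ i j, |X i j| ≤ Λ) → X.trace = 0 →
      ∀ τ : ℝ, 0 ≤ τ → τ ≤ 1 → 1 - K * τ ^ 2 ≤ (1 + τ • X).det := by
  refine ⟨((d.factorial : ℝ) + (d : ℝ) ^ 2) * Λ ^ 2 * (1 + Λ) ^ d, by positivity,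
    fun X hX htr τ h0 h1 => ?_⟩
  set M := 1 + τ • X
  have hM : ∀ i j, |M i j| ≤ 1 + Λ := fun i j => by
    have : |τ * X i j| ≤ Λ := by
      rw [abs_mul, abs_of_nonneg h0]; nlinarith [hX i j, abs_nonneg (X i j)]
    simp only [M, Matrix.add_apply, Matrix.smul_apply, smul_eq_mul, Matrix.one_apply]
    split_ifs
    · exact (abs_add_le _ _).trans (by rw [abs_one]; linarith)
    · rw [zero_add]; linarith
  have hoff : ∀ i j, i ≠ j → |M i j| ≤ τ * Λ := fun i j hij => by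
    simp only [M, Matrix.add_apply, Matrix.smul_apply, smul_eq_mul, Matrix.one_apply, if_neg hij,
      zero_add, abs_mul, abs_of_nonneg h0]
    exact mul_le_mul_of_nonneg_left (hX i j) h0
  have hterm : ∀ σ : Equiv.Perm (Fin d), σ ≠ 1 → |∏ i, M (σ i) i| ≤ (τ * Λ) ^ 2 * (1 + Λ) ^ d := by
    intro σ hσ
    obtain ⟨j, hj⟩ : ∃ j, σ j ≠ j := by
      by_contra h
      push Not at h
      exact hσ (Equiv.ext h)
    have hj2 : σ (σ j) ≠ σ j := fun h => hj (σ.injective h)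
    rw [abs_prod, ← mul_prod_erase univ _ (mem_univ j),
      ← mul_prod_erase (univ.erase j) _ (mem_erase.2 ⟨hj, mem_univ (σ j)⟩), ← mul_assoc, sq]
    refine mul_le_mul (mul_le_mul (hoff _ _ hj) (hoff _ _ hj2) (abs_nonneg _) (by positivity)) ?_
      (prod_nonneg fun i _ => abs_nonneg _) (by positivity)
    refine ((prod_le_prod (fun i _ => abs_nonneg _) fun i _ => hM (σ i) i).trans_eq (prod_const _)).trans
      (pow_le_pow_right₀ (by linarith) ?_)
    exact (card_le_univ _).trans (Fintype.card_fin d).le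
  have hdiag : 1 - (d : ℝ) ^ 2 * (τ * Λ) ^ 2 * (1 + Λ) ^ d ≤ ∏ i, M i i := by
    have h := abs_prod_one_add_sub (univ : Finset (Fin d)) (fun i => τ * X i i)
      (α := τ * Λ) (by positivity) fun i _ => by
        rw [abs_mul, abs_of_nonneg h0]; exact mul_le_mul_of_nonneg_left (hX i i) h0
    have e : ∑ i, τ * X i i = 0 := by rw [← mul_sum]; exact mul_eq_zero_of_right τ htr
    rw [e, sub_zero, card_univ, Fintype.card_fin] at h
    have hM' : ∏ i, M i i = ∏ i, (1 + τ * X i i) := prod_congr rfl fun i _ => by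
      simp [M]
    have hle : (1 + τ * Λ) ^ d ≤ (1 + Λ) ^ d :=
      pow_le_pow_left₀ (by positivity) (by nlinarith) d
    rw [hM']
    nlinarith [(abs_le.1 h).1, mul_le_mul_of_nonneg_left hle
      (by positivity : (0 : ℝ) ≤ (d : ℝ) ^ 2 * (τ * Λ) ^ 2)]
  rw [det_apply', ← add_sum_erase univ _ (mem_univ (1 : Equiv.Perm (Fin d)))]
  simp only [Equiv.Perm.coe_one, id_eq, Equiv.Perm.sign_one, Units.val_one, Int.cast_one, one_mul]
  have hrest : -((d.factorial : ℝ) * ((τ * Λ) ^ 2 * (1 + Λ) ^ d)) ≤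
      ∑ σ ∈ univ.erase (1 : Equiv.Perm (Fin d)),
        ((Equiv.Perm.sign σ : ℤ) : ℝ) * ∏ i, M (σ i) i := by
    refine neg_le_of_abs_le ((abs_sum_le_sum_abs _ _).trans
      ((sum_le_card_nsmul _ _ ((τ * Λ) ^ 2 * (1 + Λ) ^ d) fun σ hσ => ?_).trans ?_))
    · rcases Int.units_eq_one_or (Equiv.Perm.sign σ) with h | h <;>
        simp [h, hterm σ (ne_of_mem_erase hσ)]
    · rw [nsmul_eq_mul]
      refine mul_le_mul_of_nonneg_right ?_ (by positivity)
      exact_mod_cast (card_le_univ _).trans (by rw [Fintype.card_perm, Fintype.card_fin])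
  nlinarith

/-- Nearby lattices have nearby Voronoi norms. -/
lemma vnorm_perturb {d : ℕ} {A : Fin d → Eu d} (hA : Big A) (M : Eu d →L[ℝ] Eu d)
    {ε : ℝ} (hε : ε ≤ 1 / 2) (hM : ∀ x, ‖M x - x‖ ≤ ε * ‖x‖) (x : Eu d) :
    vnorm (⇑M ∘ A) x ≤ vnorm A x + 4 * ε * ‖x‖ := by
  refine ciSup_le fun z => ?_
  have e : lvec (⇑M ∘ A) z = M (lvec A z) := by simp [lvec]
  rw [e]
  rcases eq_or_ne z 0 with rfl | hz
  · have hxε : 0 ≤ ε * ‖x‖ := (norm_nonneg _).trans (hM x)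
    simp only [lvec_zero, map_zero, inner_zero_right, mul_zero, zero_div]
    nlinarith [vnorm_nonneg hA x]
  set b := lvec A z
  set a := M b
  have hb : 1 ≤ ‖b‖ := hA.norm_ge hz
  have ha : ‖b‖ / 2 ≤ ‖a‖ := by
    have h1 := norm_sub_norm_le b a
    rw [norm_sub_rev] at h1
    nlinarith [hM b]
  have ha0 : 0 < ‖a‖ := by linarith
  have hb0 : 0 < ‖b‖ := by linarith
  set u := (‖a‖ ^ 2)⁻¹ • a - (‖b‖ ^ 2)⁻¹ • b
  have hu : ‖u‖ = ‖a - b‖ / (‖a‖ * ‖b‖) := by
    refine (pow_left_inj₀ (norm_nonneg _) (by positivity) two_ne_zero).1 ?_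
    rw [div_pow, norm_sub_sq_real, norm_sub_sq_real, real_inner_smul_left, real_inner_smul_right,
      norm_smul, norm_smul, norm_inv, norm_inv, Real.norm_eq_abs, Real.norm_eq_abs,
      abs_of_nonneg (sq_nonneg _), abs_of_nonneg (sq_nonneg _)]
    field_simp
    ring
  have hu2 : ‖u‖ ≤ 2 * ε := by
    rw [hu, div_le_iff₀ (by positivity)]
    have h2 : ‖a - b‖ ≤ ε * ‖b‖ := hM b
    have h3 : 0 ≤ ε * ‖b‖ := (norm_nonneg _).trans h2
    have h4 : 0 ≤ ε := nonneg_of_mul_nonneg_left h3 hb0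
    nlinarith [mul_le_mul_of_nonneg_left (show 1 ≤ 2 * ‖a‖ by linarith) h3]
  have key : 2 * ⟪x, a⟫ / ‖a‖ ^ 2 = 2 * ⟪x, b⟫ / ‖b‖ ^ 2 + 2 * ⟪x, u⟫ := by
    simp only [u, inner_sub_right, real_inner_smul_right]
    ring
  rw [key]
  have h5 := real_inner_le_norm x u
  nlinarith [vterm_le_vnorm hA x z, mul_le_mul_of_nonneg_left hu2 (norm_nonneg x)]

end Vale.Agent.P160R.RM
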