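import Vale.Agent.P160R.RM.Perturb

/-!
P160, reverse Minkowski: at a near-maximiser of the moment no trace-normalised map shrinks the norm much.
-/

namespace Vale.Agent.P160R.RM

open MeasureTheory Matrix Filter
open scoped RealInnerProductSpace Topology

variable {d : ℕ}

/-- All proper sublattices have determinant above `1 + η`. -/
def Margin (η : ℝ) (A : Fin d → Eu d) : Prop :=
  ∀ (r : ℕ) (Z : Fin r → Fin d → ℤ), LinearIndependent ℤ Z → 1 ≤ r → r < d →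
    1 + η < (gram ℝ fun c => lvec A (Z c)).det

lemma big_map {A : Fin d → Eu d} (hA : Big A) {η : ℝ} (hη : 0 < η) (hm : Margin η A)
    (M : Eu d →L[ℝ] Eu d) {a : ℝ} (ha0 : 0 ≤ a) (ha1 : a ≤ 1) (hM : ∀ x, a * ‖x‖ ≤ ‖M x‖)
    (hgap : 1 ≤ (a ^ 2) ^ d * (1 + η)) (hdet : 1 ≤ LinearMap.det (M : Eu d →ₗ[ℝ] Eu d)) :
    Big (⇑M ∘ A) := by
  intro r Z hZ
  have e : (fun c => lvec (⇑M ∘ A) (Z c)) = (M : Eu d →ₗ[ℝ] Eu d) ∘ fun c => lvec A (Z c) := by
    funext c; simp [lvec]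
  rw [e]
  have hr : r ≤ d := by
    have h := hZ.fintype_card_le_finrank
    simpa using h
  rcases Nat.eq_zero_or_pos r with rfl | hr1
  · simp
  rcases hr.lt_or_eq with h | h
  · refine le_trans ?_ (det_gram_map_ge _ ha0 hM _)
    rw [Fintype.card_fin]
    have h1 := hm r Z hZ hr1 h
    have h2 : (a ^ 2) ^ d ≤ (a ^ 2) ^ r :=
      pow_le_pow_of_le_one (sq_nonneg a) (pow_le_one₀ ha0 ha1) hr
    nlinarith [mul_le_mul_of_nonneg_right h2 (by linarith : (0 : ℝ) ≤ 1 + η),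
      mul_le_mul_of_nonneg_left h1.le (pow_nonneg (sq_nonneg a) r)]
  · subst h
    rw [det_gram_map]
    exact (hA r Z hZ).trans (le_mul_of_one_le_left (posSemidef_gram ℝ _).det_nonneg (one_le_pow₀ hdet))

lemma integrable_norm_comp (T : Eu d →L[ℝ] Eu d) (p : ℕ) :
    Integrable (fun x => ‖T x‖ ^ p) (gam d) :=
  Integrable.mono' ((integrable_norm_pow d p).const_mul (‖T‖ ^ p))
    (T.continuous.norm.pow p).aestronglyMeasurable (Eventually.of_forall fun x => by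
      rw [Real.norm_eq_abs, abs_of_nonneg (by positivity), ← mul_pow]
      exact pow_le_pow_left₀ (norm_nonneg _) (T.le_opNorm x) p)

/-- The inequality at a fixed step `τ`. -/
lemma stationary_step {A : Fin d → Eu d} (hA : Big A) {p : ℕ} (hp : p ≠ 0) {B ξ : ℝ}
    (hB : ∀ A' : Fin d → Eu d, Big A' → vF p A' ≤ B) (hF : B - ξ ≤ vF p A)
    (X : Eu d →L[ℝ] Eu d) {τ c ε : ℝ} (hτ0 : 0 ≤ τ) (hτ1 : τ ≤ 1) (hc : 1 ≤ c) (hε0 : 0 ≤ ε)
    (hε : ε ≤ 1 / 2) (hclose : ∀ x, ‖c • (x + τ • X x) - x‖ ≤ ε * ‖x‖)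
    (hbig : Big (⇑(c • (ContinuousLinearMap.id ℝ (Eu d) + τ • X)) ∘ A)) :
    B - ξ ≤ c ^ p * ((1 - τ) * B + τ * (2 ^ p * ∫ x, vnorm A (x + X x) ^ p ∂(gam d) +
      2 ^ p * (4 * ε) ^ p * ∫ x, ‖x + X x‖ ^ p ∂(gam d))) := by
  set I := ContinuousLinearMap.id ℝ (Eu d)
  set M := c • (I + τ • X) with hMdef
  set A' := ⇑M ∘ A
  have hMx : ∀ x, M x = c • (x + τ • X x) := fun x => by simp [M, I]
  have hc0 : 0 ≤ c := zero_le_one.trans hc
  have i1 : Integrable (fun x => vnorm A' x ^ p) (gam d) := integrable_vnorm_pow hbig p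
  have i2 : Integrable (fun x => vnorm A' (x + X x) ^ p) (gam d) := by
    simpa [I] using integrable_vnorm_comp hbig (I + X) p
  have i3 : Integrable (fun x => vnorm A (x + X x) ^ p) (gam d) := by
    simpa [I] using integrable_vnorm_comp hA (I + X) p
  have i4 : Integrable (fun x => ‖x + X x‖ ^ p) (gam d) := by
    simpa [I] using integrable_norm_comp (I + X) p
  have hlow : vF p A ≤ ∫ x, vnorm A' (M x) ^ p ∂(gam d) := by
    refine vF_le_of_pack hA hp ((continuous_vnorm hbig).comp M.continuous).measurable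
      (fun x => vnorm_nonneg hbig _) (integrable_vnorm_comp hbig M p) fun s hs x z h1 h2 => ?_
    refine vnorm_pack hbig h1 ?_
    simp only [map_add, map_smul] at h2
    rwa [show lvec A' z = M (lvec A z) by simp [A', lvec]]
  have hpt : ∀ x, vnorm A' (M x) ^ p ≤
      c ^ p * ((1 - τ) * vnorm A' x ^ p + τ * vnorm A' (x + X x) ^ p) := fun x => by
    rw [hMx, vnorm_smul hbig, abs_of_nonneg hc0, mul_pow]
    refine mul_le_mul_of_nonneg_left ?_ (pow_nonneg hc0 p)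
    have e : x + τ • X x = (1 - τ) • x + τ • (x + X x) := by module
    have h1 : vnorm A' (x + τ • X x) ≤ (1 - τ) * vnorm A' x + τ * vnorm A' (x + X x) := by
      rw [e]
      refine (vnorm_add_le hbig _ _).trans (le_of_eq ?_)
      rw [vnorm_smul hbig, vnorm_smul hbig, abs_of_nonneg (by linarith), abs_of_nonneg hτ0]
    refine (pow_le_pow_left₀ (vnorm_nonneg hbig _) h1 p).trans ?_
    have := (convexOn_pow p).2 (Set.mem_Ici.2 (vnorm_nonneg hbig x))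
      (Set.mem_Ici.2 (vnorm_nonneg hbig (x + X x))) (by linarith : (0 : ℝ) ≤ 1 - τ) hτ0 (by ring)
    simpa [smul_eq_mul] using this
  have hpt2 : ∀ x, vnorm A' (x + X x) ^ p ≤
      2 ^ p * vnorm A (x + X x) ^ p + 2 ^ p * (4 * ε) ^ p * ‖x + X x‖ ^ p := fun x => by
    set y := x + X x
    have n0 := vnorm_nonneg hA y
    have n1 : 0 ≤ 4 * ε * ‖y‖ := by positivity
    refine (pow_le_pow_left₀ (vnorm_nonneg hbig _)
      (vnorm_perturb hA M hε (fun z => by rw [hMx]; exact hclose z) y) p).trans ?_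
    refine (add_pow_le n0 n1 p).trans ?_
    rw [mul_assoc (2 ^ p : ℝ) ((4 * ε) ^ p), ← mul_pow (4 * ε), ← mul_add]
    exact mul_le_mul_of_nonneg_right (pow_le_pow_right₀ one_le_two (Nat.sub_le p 1)) (by positivity)
  calc B - ξ ≤ vF p A := hF
    _ ≤ ∫ x, vnorm A' (M x) ^ p ∂(gam d) := hlow
    _ ≤ ∫ x, c ^ p * ((1 - τ) * vnorm A' x ^ p + τ * vnorm A' (x + X x) ^ p) ∂(gam d) :=
        integral_mono (integrable_vnorm_comp hbig M p)
          (((i1.const_mul _).add (i2.const_mul _)).const_mul _) hpt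
    _ = c ^ p * ((1 - τ) * vF p A' + τ * ∫ x, vnorm A' (x + X x) ^ p ∂(gam d)) := by
        rw [integral_const_mul, integral_add (i1.const_mul _) (i2.const_mul _), integral_const_mul,
          integral_const_mul, vF]
    _ ≤ _ := by
        refine mul_le_mul_of_nonneg_left (add_le_add
          (mul_le_mul_of_nonneg_left (hB A' hbig) (by linarith)) (mul_le_mul_of_nonneg_left ?_ hτ0))
          (pow_nonneg hc0 p)
        refine (integral_mono i2 ((i3.const_mul _).add (i4.const_mul _)) hpt2).trans_eq ?_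
        rw [integral_add' (i3.const_mul _) (i4.const_mul _), integral_const_mul, integral_const_mul]

/-- A usable step. -/
lemma exists_step (d : ℕ) {p : ℕ} (hp : p ≠ 0) {B η Λ K : ℝ} (hB0 : 0 < B) (hη : 0 < η) (Mp : ℝ) :
    ∃ τ : ℝ, 0 < τ ∧ τ ≤ 1 ∧ K * τ ^ 2 ≤ 1 / 2 ∧ τ * (2 * K * τ + 2 * Λ) ≤ 1 / 2 ∧ τ * Λ ≤ 1 ∧
      1 ≤ ((1 - τ * Λ) ^ 2) ^ d * (1 + η) ∧ 2 ^ p * (2 * K * τ) * B ≤ B / 8 ∧
      2 ^ p * (4 * (τ * (2 * K * τ + 2 * Λ))) ^ p * Mp ≤ B / 8 := by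
  have hlim : ∀ (f : ℝ → ℝ) (u : ℝ), Continuous f → f 0 < u → ∀ᶠ τ in 𝓝[>] (0 : ℝ), f τ < u :=
    fun f u hf h0 =>
      (hf.continuousAt.eventually_lt continuousAt_const h0).filter_mono nhdsWithin_le_nhds
  have hev : ∀ᶠ τ in 𝓝[>] (0 : ℝ), 0 < τ ∧ τ ≤ 1 ∧ K * τ ^ 2 ≤ 1 / 2 ∧
      τ * (2 * K * τ + 2 * Λ) ≤ 1 / 2 ∧ τ * Λ ≤ 1 ∧ 1 ≤ ((1 - τ * Λ) ^ 2) ^ d * (1 + η) ∧
      2 ^ p * (2 * K * τ) * B ≤ B / 8 ∧
      2 ^ p * (4 * (τ * (2 * K * τ + 2 * Λ))) ^ p * Mp ≤ B / 8 := by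
    filter_upwards [self_mem_nhdsWithin, hlim (fun τ => τ) 1 continuous_id one_pos,
      hlim (fun τ => K * τ ^ 2) (1 / 2) (by fun_prop) (by norm_num),
      hlim (fun τ => τ * (2 * K * τ + 2 * Λ)) (1 / 2) (by fun_prop) (by norm_num),
      hlim (fun τ => τ * Λ) 1 (by fun_prop) (by norm_num),
      hlim (fun τ => -(((1 - τ * Λ) ^ 2) ^ d * (1 + η))) (-1) (by fun_prop) (by simp; linarith),
      hlim (fun τ => 2 ^ p * (2 * K * τ) * B) (B / 8) (by fun_prop) (by simp; linarith),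
      hlim (fun τ => 2 ^ p * (4 * (τ * (2 * K * τ + 2 * Λ))) ^ p * Mp) (B / 8) (by fun_prop)
        (by simp [zero_pow hp]; linarith)] with τ h1 h2 h3 h4 h5 h6 h7 h8
    exact ⟨h1, h2.le, h3.le, h4.le, h5.le, by linarith, h7.le, h8.le⟩
  exact hev.exists

/-- The determinant of the perturbing map is at least one. -/
lemma det_step {Λ K : ℝ} (hK : ∀ (X : Matrix (Fin d) (Fin d) ℝ), (∀ i j, |X i j| ≤ Λ) → X.trace = 0 →
      ∀ τ : ℝ, 0 ≤ τ → τ ≤ 1 → 1 - K * τ ^ 2 ≤ (1 + τ • X).det)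
    (hK0 : 0 ≤ K) (X : Eu d →ₗ[ℝ] Eu d) (hX : ∀ x, ‖X x‖ ≤ Λ * ‖x‖)
    (htr : LinearMap.trace ℝ (Eu d) X = 0) {τ : ℝ} (hτ : 0 ≤ τ) (hτ1 : τ ≤ 1)
    (hKτ : K * τ ^ 2 ≤ 1 / 2) :
    1 ≤ LinearMap.det ((1 + 2 * K * τ ^ 2) • (LinearMap.id + τ • X) : Eu d →ₗ[ℝ] Eu d) := by
  set b := (EuclideanSpace.basisFun (Fin d) ℝ).toBasis
  set Xm := LinearMap.toMatrix b b X
  have hXm : ∀ i j, |Xm i j| ≤ Λ := fun i j => by
    simp only [Xm, LinearMap.toMatrix_apply]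
    rw [← Real.norm_eq_abs]
    refine (PiLp.norm_apply_le (X (b j)) i).trans ((hX (b j)).trans ?_)
    simp [b]
  have htr0 : Xm.trace = 0 := by
    simp only [Xm]
    rw [← LinearMap.trace_eq_matrix_trace, htr]
  have h1 := hK Xm hXm htr0 τ hτ hτ1
  rw [← LinearMap.det_toMatrix b, map_smul, map_add, map_smul, LinearMap.toMatrix_id, det_smul,
    Fintype.card_fin]
  rcases Nat.eq_zero_or_pos d with rfl | hd
  · simp
  have h0 : 0 ≤ 2 * K * τ ^ 2 := by positivity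
  have h2 : 1 ≤ (1 + 2 * K * τ ^ 2) * (1 - K * τ ^ 2) := by
    nlinarith [mul_le_mul_of_nonneg_left hKτ h0]
  exact h2.trans (mul_le_mul (le_self_pow₀ (by linarith) hd.ne') h1 (by linarith) (by positivity))

/-- The arithmetic of the step. -/
lemma step_arith {B ξ τ c u J W : ℝ} (hB0 : 0 < B) (hτ : 0 < τ) (hc0 : 0 ≤ c) (hc : c ≤ 1 + u * τ ^ 2)
    (hu0 : 0 ≤ u) (hu : u * τ * B ≤ B / 8) (hξ : ξ = τ * B / 8) (hW : W ≤ B / 8) (hτ1 : τ ≤ 1)
    (h : B - ξ ≤ c * ((1 - τ) * B + τ * (J + W))) : B / 8 ≤ J := by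
  by_contra hcon
  push Not at hcon
  have h1 : (1 - τ) * B + τ * (J + W) ≤ B - τ * (3 * B / 4) := by nlinarith
  have h2 : 0 ≤ B - τ * (3 * B / 4) := by nlinarith
  have h3 := h.trans ((mul_le_mul_of_nonneg_left h1 hc0).trans (mul_le_mul_of_nonneg_right hc h2))
  nlinarith [mul_le_mul_of_nonneg_left hu hτ.le, mul_pos hτ hB0,
    mul_nonneg (mul_nonneg hu0 (sq_nonneg τ)) (mul_nonneg hτ.le hB0.le)]

/-- Stationarity at a near-maximiser. -/
theorem stationary (d : ℕ) {p : ℕ} (hp : p ≠ 0) {B : ℝ} (hB0 : 0 < B) {η : ℝ} (hη : 0 < η) {Λ : ℝ}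
    (hΛ : 0 ≤ Λ) :
    ∃ ξ > 0, ∀ A : Fin d → Eu d, Big A → Margin η A →
      (∀ A' : Fin d → Eu d, Big A' → vF p A' ≤ B) → B - ξ ≤ vF p A →
      ∀ T : Eu d →L[ℝ] Eu d, LinearMap.trace ℝ (Eu d) (T : Eu d →ₗ[ℝ] Eu d) = d → ‖T‖ ≤ Λ →
        B / 8 ≤ 2 ^ p * ∫ x, vnorm A (T x) ^ p ∂(gam d) := by
  obtain ⟨K, hK0, hK⟩ := det_one_add_small d (add_nonneg hΛ zero_le_one)
  obtain ⟨τ, hτ, hτ1, hKτ, hEτ, hΛτ, hgap, hKB, hMB⟩ :=
    exists_step d hp (Λ := Λ + 1) (K := K) hB0 hη (Λ ^ p * ∫ x, ‖x‖ ^ p ∂(gam d))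
  refine ⟨τ * B / 8, by positivity, fun A hA hm hB hF T htr hT => ?_⟩
  set X := T - ContinuousLinearMap.id ℝ (Eu d)
  have hu : 0 ≤ 2 * K * τ ^ 2 := by positivity
  set c := 1 + 2 * K * τ ^ 2 with hcdef
  have hc : 1 ≤ c := by linarith
  have hX : ∀ x, ‖X x‖ ≤ (Λ + 1) * ‖x‖ := fun x => by
    simp only [X, _root_.sub_apply, ContinuousLinearMap.id_apply]
    refine (norm_sub_le _ _).trans ?_
    nlinarith [T.le_opNorm x, mul_le_mul_of_nonneg_right hT (norm_nonneg x)]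
  have hclose : ∀ x, ‖c • (x + τ • X x) - x‖ ≤ τ * (2 * K * τ + 2 * (Λ + 1)) * ‖x‖ := fun x => by
    have e : c • (x + τ • X x) - x = (c - 1) • x + (c * τ) • X x := by
      rw [smul_add, smul_smul, sub_smul, one_smul]; abel
    rw [e]
    refine (norm_add_le _ _).trans ?_
    rw [norm_smul, norm_smul, Real.norm_eq_abs, Real.norm_eq_abs,
      abs_of_nonneg (sub_nonneg.2 hc), abs_of_nonneg (by positivity)]
    have h1 : c * τ * ‖X x‖ ≤ 2 * τ * ((Λ + 1) * ‖x‖) :=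
      mul_le_mul (mul_le_mul_of_nonneg_right (by linarith) hτ.le) (hX x) (norm_nonneg _) (by positivity)
    have h2 : (c - 1) * ‖x‖ = τ * (2 * K * τ) * ‖x‖ := by rw [hcdef]; ring
    linarith
  have htr0 : LinearMap.trace ℝ (Eu d) (X : Eu d →ₗ[ℝ] Eu d) = 0 := by
    show LinearMap.trace ℝ (Eu d) ((T : Eu d →ₗ[ℝ] Eu d) - LinearMap.id) = 0
    rw [map_sub, htr, LinearMap.trace_id, finrank_euclideanSpace_fin, sub_self]
  have hdet := det_step hK hK0 (X : Eu d →ₗ[ℝ] Eu d) hX htr0 hτ.le hτ1 hKτ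
  set M := c • (ContinuousLinearMap.id ℝ (Eu d) + τ • X)
  have hMx : ∀ x, M x = c • (x + τ • X x) := fun x => by simp [M]
  have hbig : Big (⇑M ∘ A) := by
    refine big_map hA hη hm M (a := 1 - τ * (Λ + 1)) (by linarith) (by nlinarith) (fun x => ?_) hgap hdet
    have h1 : ‖x‖ - τ * ((Λ + 1) * ‖x‖) ≤ ‖x + τ • X x‖ := by
      have h := norm_sub_norm_le x (-(τ • X x))
      rw [norm_neg, sub_neg_eq_add, norm_smul, Real.norm_eq_abs, abs_of_pos hτ] at h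
      nlinarith [mul_le_mul_of_nonneg_left (hX x) hτ.le]
    rw [hMx, norm_smul, Real.norm_eq_abs, abs_of_nonneg (zero_le_one.trans hc)]
    nlinarith [norm_nonneg (x + τ • X x)]
  have h := stationary_step hA hp hB hF X hτ.le hτ1 hc (by positivity) hEτ hclose hbig
  have eT : ∀ x, x + X x = T x := fun x => by simp [X]
  simp only [eT] at h
  have hTM : ∫ x, ‖T x‖ ^ p ∂(gam d) ≤ Λ ^ p * ∫ x, ‖x‖ ^ p ∂(gam d) := by
    rw [← integral_const_mul]
    refine integral_mono (integrable_norm_comp T p) ((integrable_norm_pow d p).const_mul _) fun x => ?_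
    rw [← mul_pow]
    exact pow_le_pow_left₀ (norm_nonneg _)
      ((T.le_opNorm x).trans (mul_le_mul_of_nonneg_right hT (norm_nonneg x))) p
  have h2 := (mul_le_mul_of_nonneg_left hTM (by positivity :
    (0 : ℝ) ≤ 2 ^ p * (4 * (τ * (2 * K * τ + 2 * (Λ + 1)))) ^ p)).trans hMB
  have h3 : c ^ p ≤ 1 + 2 ^ p * (2 * K) * τ ^ 2 := by
    have hcv := (convexOn_pow p).2 (Set.mem_Ici.2 (zero_le_one' ℝ))
      (Set.mem_Ici.2 (zero_le_two (α := ℝ)))
      (by linarith : (0 : ℝ) ≤ 1 - 2 * K * τ ^ 2) hu (by ring)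
    simp only [smul_eq_mul, one_pow, mul_one] at hcv
    rw [show 1 - 2 * K * τ ^ 2 + 2 * K * τ ^ 2 * 2 = c by rw [hcdef]; ring] at hcv
    linarith
  refine step_arith hB0 hτ (pow_nonneg (zero_le_one.trans hc) p) h3 (by positivity) ?_ rfl h2 hτ1 h
  linarith

end Vale.Agent.P160R.RM
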