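import Vale.Agent.P160R.RM.Gauss
import Vale.Agent.P160R.RM.Gram

/-!
P160, reverse Minkowski: the Voronoi norm. Its balls dominate every packing set in Gaussian measure,
its unit ball has volume at least one, and a bound on its moments bounds the number of short vectors.
-/

namespace Vale.Agent.P160R.RM

open MeasureTheory Matrix Set
open scoped RealInnerProductSpace ENNReal

variable {d : ℕ} {A : Fin d → Eu d}

lemma lvec_zero (A : Fin d → Eu d) : lvec A 0 = 0 := by simp [lvec]

lemma lvec_neg (A : Fin d → Eu d) (z : Fin d → ℤ) : lvec A (-z) = -lvec A z := by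
  simp [lvec, neg_smul, Finset.sum_neg_distrib]

lemma lvec_sub (A : Fin d → Eu d) (z w : Fin d → ℤ) : lvec A (z - w) = lvec A z - lvec A w := by
  simp [lvec, sub_smul, Finset.sum_sub_distrib]

lemma Big.norm_ge (hA : Big A) {z : Fin d → ℤ} (hz : z ≠ 0) : 1 ≤ ‖lvec A z‖ := by
  have h := hA 1 (fun _ => z) (LinearIndependent.of_subsingleton (0 : Fin 1) hz)
  rw [det_unique, gram_apply, real_inner_self_eq_norm_sq] at h
  nlinarith [norm_nonneg (lvec A z)]

lemma Big.one_le_det (hA : Big A) : 1 ≤ (gram ℝ A).det := by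
  have hli : LinearIndependent ℤ (fun c : Fin d => (Pi.single c 1 : Fin d → ℤ)) := by
    have e : ⇑(Pi.basisFun ℤ (Fin d)) = fun c : Fin d => (Pi.single c 1 : Fin d → ℤ) :=
      funext fun c => by simp
    have h := (Pi.basisFun ℤ (Fin d)).linearIndependent
    rw [e] at h
    convert h
  have h := hA d (fun c => Pi.single c 1) hli
  have e : (fun c => lvec A (Pi.single c 1)) = A := by
    funext c
    simp [lvec, Pi.single_apply, ite_smul]
  rwa [e] at h

lemma Big.indep (hA : Big A) : LinearIndependent ℝ A :=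
  det_gram_ne_zero_iff_linearIndependent.1 (zero_lt_one.trans_le hA.one_le_det).ne'

/-- Finitely many lattice vectors lie in a ball. -/
lemma Big.finite_ball (hA : Big A) (R : ℝ) : {z : Fin d → ℤ | ‖lvec A z‖ ≤ R}.Finite := by
  set L : (Fin d → ℝ) →ₗ[ℝ] Eu d := Fintype.linearCombination ℝ A
  have hL : LinearMap.ker L = ⊥ := LinearMap.ker_eq_bot.2
    (linearIndependent_iff_injective_fintypeLinearCombination.1 hA.indep)
  obtain ⟨K, -, hK⟩ := L.exists_antilipschitzWith hL
  refine Set.Finite.subset (Set.finite_Icc (fun _ => -⌈(K : ℝ) * R⌉) (fun _ => ⌈(K : ℝ) * R⌉)) ?_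
  intro z hz
  have h : ∀ i, |(z i : ℝ)| ≤ K * R := fun i => by
    have h1 := hK.le_mul_dist (fun i => (z i : ℝ)) 0
    rw [map_zero, dist_zero_right, dist_zero_right] at h1
    have h2 : L (fun i => (z i : ℝ)) = lvec A z := by simp [L, lvec, Fintype.linearCombination_apply]
    rw [h2] at h1
    refine (Real.norm_eq_abs (z i : ℝ)).symm.le.trans ((norm_le_pi_norm _ i).trans (h1.trans ?_))
    exact mul_le_mul_of_nonneg_left hz K.coe_nonneg
  refine ⟨fun i => ?_, fun i => ?_⟩ <;>
  · have := h i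
    rw [abs_le] at this
    have hc := Int.le_ceil ((K : ℝ) * R)
    have : (z i : ℝ) ≤ (⌈(K : ℝ) * R⌉ : ℤ) ∧ -((⌈(K : ℝ) * R⌉ : ℤ) : ℝ) ≤ z i :=
      ⟨by linarith [this.2], by linarith [this.1]⟩
    first
      | exact_mod_cast this.2
      | exact_mod_cast this.1

lemma vterm_le (hA : Big A) (x : Eu d) (z : Fin d → ℤ) :
    2 * ⟪x, lvec A z⟫ / ‖lvec A z‖ ^ 2 ≤ 2 * ‖x‖ := by
  rcases eq_or_ne z 0 with rfl | hz
  · simp [lvec_zero]
  have h1 := hA.norm_ge hz
  rw [div_le_iff₀ (by positivity)]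
  have h2 := real_inner_le_norm x (lvec A z)
  have h3 : ‖lvec A z‖ ≤ ‖lvec A z‖ ^ 2 := by nlinarith
  nlinarith [mul_le_mul_of_nonneg_left h3 (norm_nonneg x)]

lemma vterm_le_vnorm (hA : Big A) (x : Eu d) (z : Fin d → ℤ) :
    2 * ⟪x, lvec A z⟫ / ‖lvec A z‖ ^ 2 ≤ vnorm A x :=
  le_ciSup ⟨2 * ‖x‖, by rintro _ ⟨w, rfl⟩; exact vterm_le hA x w⟩ z

lemma vnorm_le_two (hA : Big A) (x : Eu d) : vnorm A x ≤ 2 * ‖x‖ := ciSup_le (vterm_le hA x)

lemma vnorm_nonneg (hA : Big A) (x : Eu d) : 0 ≤ vnorm A x := by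
  simpa [lvec_zero] using vterm_le_vnorm hA x 0

lemma vnorm_inner_le (hA : Big A) (x : Eu d) (z : Fin d → ℤ) :
    2 * ⟪x, lvec A z⟫ ≤ vnorm A x * ‖lvec A z‖ ^ 2 := by
  rcases eq_or_ne z 0 with rfl | hz
  · simp [lvec_zero]
  have h1 := hA.norm_ge hz
  exact (div_le_iff₀ (by positivity)).1 (vterm_le_vnorm hA x z)

lemma vnorm_add_le (hA : Big A) (x y : Eu d) : vnorm A (x + y) ≤ vnorm A x + vnorm A y :=
  ciSup_le fun z => by
    rw [inner_add_left, mul_add, add_div]
    exact add_le_add (vterm_le_vnorm hA x z) (vterm_le_vnorm hA y z)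

lemma vnorm_smul (hA : Big A) (c : ℝ) (x : Eu d) : vnorm A (c • x) = |c| * vnorm A x := by
  have hneg : ∀ y, vnorm A (-y) ≤ vnorm A y := fun y => ciSup_le fun z => by
    have := vterm_le_vnorm hA y (-z)
    simpa [lvec_neg, inner_neg_left, inner_neg_right] using this
  have hpos : ∀ (a : ℝ) (y : Eu d), 0 ≤ a → vnorm A (a • y) = a * vnorm A y := fun a y ha => by
    rw [vnorm, vnorm, Real.mul_iSup_of_nonneg ha]
    exact iSup_congr fun z => by rw [real_inner_smul_left]; ring
  rcases le_total 0 c with h | h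
  · rw [hpos c x h, abs_of_nonneg h]
  · have e : c • x = -((-c) • x) := by simp
    rw [abs_of_nonpos h, ← hpos (-c) x (neg_nonneg.2 h), e]
    refine le_antisymm (hneg _) ?_
    calc vnorm A ((-c) • x) = vnorm A (- -((-c) • x)) := by rw [neg_neg]
      _ ≤ _ := hneg _

/-- The Voronoi norm as a seminorm. -/
noncomputable def vsemi (hA : Big A) : Seminorm ℝ (Eu d) :=
  Seminorm.of (vnorm A) (vnorm_add_le hA) fun c x => by rw [vnorm_smul hA, Real.norm_eq_abs]

lemma vsemi_apply (hA : Big A) (x : Eu d) : vsemi hA x = vnorm A x := rfl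

lemma vnorm_neg (hA : Big A) (x : Eu d) : vnorm A (-x) = vnorm A x := map_neg_eq_map (vsemi hA) x

lemma abs_vnorm_sub_le (hA : Big A) (x y : Eu d) : |vnorm A x - vnorm A y| ≤ 2 * ‖x - y‖ :=
  (abs_sub_map_le_sub (vsemi hA) x y).trans (vnorm_le_two hA _)

lemma continuous_vnorm (hA : Big A) : Continuous (vnorm A) :=
  (LipschitzWith.of_dist_le_mul (K := 2) fun x y => by
    simpa [Real.dist_eq, dist_eq_norm] using abs_vnorm_sub_le hA x y).continuous

/-- The dilated cell covers. -/
lemma vnorm_cover (hA : Big A) {s : ℝ} (hs : 0 < s) (x : Eu d) :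
    ∃ z, vnorm A (x - s • lvec A z) ≤ s := by
  set T := (hA.finite_ball (2 * ‖x‖ / s)).toFinset
  have h0 : (0 : Fin d → ℤ) ∈ T := by
    simp only [T, Set.Finite.mem_toFinset, Set.mem_ofPred_eq, lvec_zero, norm_zero]
    positivity
  obtain ⟨z, -, hz⟩ := T.exists_min_image (fun z => ‖x - s • lvec A z‖) ⟨0, h0⟩
  have hmin : ∀ w, ‖x - s • lvec A z‖ ≤ ‖x - s • lvec A w‖ := fun w => by
    by_cases hw : w ∈ T
    · exact hz w hw
    · refine (hz 0 h0).trans ?_
      simp only [T, Set.Finite.mem_toFinset, Set.mem_ofPred_eq, not_le, div_lt_iff₀ hs] at hw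
      have h1 := norm_sub_norm_le (s • lvec A w) x
      rw [norm_sub_rev] at h1
      rw [norm_smul, Real.norm_eq_abs, abs_of_pos hs] at h1
      simp only [lvec_zero, smul_zero, sub_zero]
      nlinarith
  refine ⟨z, ciSup_le fun w => ?_⟩
  rcases eq_or_ne w 0 with rfl | hw
  · simp [lvec_zero, hs.le]
  rw [div_le_iff₀ (by nlinarith [hA.norm_ge hw])]
  have h1 := pow_le_pow_left₀ (norm_nonneg _) (hmin (z + w)) 2
  have e : x - s • lvec A (z + w) = (x - s • lvec A z) - s • lvec A w := by
    rw [show lvec A (z + w) = lvec A z + lvec A w by simp [lvec, add_smul, Finset.sum_add_distrib],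
      smul_add, sub_add_eq_sub_sub]
  rw [e, norm_sub_sq_real (x - s • lvec A z), real_inner_smul_right, norm_smul, mul_pow,
    Real.norm_eq_abs, sq_abs] at h1
  have h2 : s * (2 * ⟪x - s • lvec A z, lvec A w⟫) ≤ s * (s * ‖lvec A w‖ ^ 2) := by nlinarith
  exact le_of_mul_le_mul_left h2 hs

/-- The open dilated cell packs. -/
lemma vnorm_pack (hA : Big A) {s : ℝ} {x : Eu d} {z : Fin d → ℤ} (h1 : vnorm A x < s)
    (h2 : vnorm A (x + s • lvec A z) < s) : z = 0 := by
  by_contra hz
  have hn := hA.norm_ge hz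
  have h3 := vnorm_inner_le hA (x + s • lvec A z) z
  have h4 := vnorm_inner_le hA x (-z)
  rw [inner_add_left, real_inner_smul_left, real_inner_self_eq_norm_sq] at h3
  rw [lvec_neg, norm_neg, inner_neg_right] at h4
  have hp : 0 < ‖lvec A z‖ ^ 2 := by positivity
  nlinarith [mul_lt_mul_of_pos_right h1 hp, mul_lt_mul_of_pos_right h2 hp]

/-- A set that is covered by translates of `C` and packed by them has at most the mass of `C`. -/
lemma measure_le_of_pack {μ : Measure (Eu d)} {D C : Set (Eu d)} (hD : MeasurableSet D)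
    (hC : MeasurableSet C) (v : (Fin d → ℤ) → Eu d) (cover : ∀ x ∈ D, ∃ z, x - v z ∈ C)
    (disj : ∀ x z z', x + v z ∈ D → x + v z' ∈ D → z = z')
    (shift : ∀ z S, MeasurableSet S → S ⊆ C → μ ((fun x => x - v z) ⁻¹' S) ≤ μ S) :
    μ D ≤ μ C := by
  set S := fun z => C ∩ (fun x => x + v z) ⁻¹' D
  have hS : ∀ z, MeasurableSet (S z) := fun z => hC.inter (hD.preimage (by fun_prop))
  calc μ D ≤ μ (⋃ z, (fun x => x - v z) ⁻¹' S z) := measure_mono fun x hx => by
        obtain ⟨z, hz⟩ := cover x hx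
        exact mem_iUnion.2 ⟨z, hz, by simpa using hx⟩
    _ ≤ ∑' z, μ ((fun x => x - v z) ⁻¹' S z) := measure_iUnion_le _
    _ ≤ ∑' z, μ (S z) := ENNReal.tsum_le_tsum fun z => shift z _ (hS z) inter_subset_left
    _ = μ (⋃ z, S z) := (measure_iUnion (fun z w hzw => Set.disjoint_left.2 fun x hx hy =>
        hzw (disj x z w hx.2 hy.2)) hS).symm
    _ ≤ μ C := measure_mono (iUnion_subset fun z => inter_subset_left)

/-- Gaussian domination: the dilated cell beats every set packed by the dilated lattice. -/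
lemma gam_le_cell (hA : Big A) {s : ℝ} (hs : 0 < s) {D : Set (Eu d)} (hD : MeasurableSet D)
    (hpack : ∀ x z, x ∈ D → x + s • lvec A z ∈ D → z = 0) :
    gam d D ≤ gam d {x | vnorm A x ≤ s} := by
  have hC : MeasurableSet {x | vnorm A x ≤ s} :=
    measurableSet_le (continuous_vnorm hA).measurable measurable_const
  refine measure_le_of_pack hD hC (fun z => s • lvec A z) (fun x _ => vnorm_cover hA hs x)
    (fun x z z' h h' => ?_) fun z S hS hSC => ?_
  · have e : x + s • lvec A z + s • lvec A (z' - z) = x + s • lvec A z' := by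
      rw [lvec_sub, smul_sub]; abel
    exact (sub_eq_zero.1 (hpack _ (z' - z) h (by rw [e]; exact h'))).symm
  · rw [gam_translate hS, gam_apply hS]
    refine setLIntegral_mono (measurable_dens d) fun x hx => dens_mono ?_
    have h := vnorm_inner_le hA x (-z)
    rw [lvec_neg, norm_neg, inner_neg_right] at h
    have hx' : vnorm A x ≤ s := hSC hx
    rw [← pow_le_pow_iff_left₀ (norm_nonneg _) (norm_nonneg _) two_ne_zero, norm_add_sq_real,
      real_inner_smul_right, norm_smul, mul_pow, Real.norm_eq_abs, sq_abs]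
    nlinarith [mul_le_mul_of_nonneg_right hx' (sq_nonneg ‖lvec A z‖)]

/-- The moment of the Voronoi norm. -/
noncomputable def vF (p : ℕ) (A : Fin d → Eu d) : ℝ := ∫ x, vnorm A x ^ p ∂(gam d)

lemma integrable_vnorm_comp (hA : Big A) (T : Eu d →L[ℝ] Eu d) (p : ℕ) :
    Integrable (fun x => vnorm A (T x) ^ p) (gam d) := by
  refine Integrable.mono' ((integrable_norm_pow d p).const_mul ((2 * ‖T‖) ^ p))
    (((continuous_vnorm hA).comp T.continuous).pow p).aestronglyMeasurable
    (Filter.Eventually.of_forall fun x => ?_)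
  rw [Real.norm_eq_abs, abs_of_nonneg (pow_nonneg (vnorm_nonneg hA _) p), ← mul_pow, mul_assoc]
  exact pow_le_pow_left₀ (vnorm_nonneg hA _)
    ((vnorm_le_two hA _).trans (mul_le_mul_of_nonneg_left (T.le_opNorm x) two_pos.le)) p

lemma integrable_vnorm_pow (hA : Big A) (p : ℕ) :
    Integrable (fun x => vnorm A x ^ p) (gam d) :=
  integrable_vnorm_comp hA (ContinuousLinearMap.id ℝ (Eu d)) p

lemma vF_nonneg (hA : Big A) (p : ℕ) : 0 ≤ vF p A :=
  integral_nonneg fun x => pow_nonneg (vnorm_nonneg hA x) p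

/-- Comparison of moments with a function whose sublevel sets pack. -/
lemma vF_le_of_pack (hA : Big A) {p : ℕ} (hp : p ≠ 0) {f : Eu d → ℝ} (hf : Measurable f)
    (hf0 : ∀ x, 0 ≤ f x) (hfi : Integrable (fun x => f x ^ p) (gam d))
    (hpack : ∀ s, 0 < s → ∀ x z, f x < s → f (x + s • lvec A z) < s → z = 0) :
    vF p A ≤ ∫ x, f x ^ p ∂(gam d) := by
  have h1 : 0 ≤ᵐ[gam d] fun x => vnorm A x ^ p :=
    Filter.Eventually.of_forall fun x => pow_nonneg (vnorm_nonneg hA x) p
  have h2 : 0 ≤ᵐ[gam d] fun x => f x ^ p := Filter.Eventually.of_forall fun x => pow_nonneg (hf0 x) p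
  rw [vF, ← ENNReal.ofReal_le_ofReal_iff (integral_nonneg_of_ae h2),
    ofReal_integral_eq_lintegral_ofReal (integrable_vnorm_pow hA p) h1,
    ofReal_integral_eq_lintegral_ofReal hfi h2,
    lintegral_eq_lintegral_meas_lt _ h1 (integrable_vnorm_pow hA p).aemeasurable,
    lintegral_eq_lintegral_meas_le _ h2 hfi.aemeasurable]
  refine setLIntegral_mono' measurableSet_Ioi fun t ht => ?_
  set s := t ^ ((p : ℝ)⁻¹) with hs
  have ht0 : (0 : ℝ) < t := ht
  have hs0 : 0 < s := Real.rpow_pos_of_pos ht0 _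
  have hsp : s ^ p = t := Real.rpow_inv_natCast_pow ht0.le hp
  have e1 : {a | t < vnorm A a ^ p} = {a | vnorm A a ≤ s}ᶜ := by
    ext a; simp only [Set.mem_ofPred_eq, mem_compl_iff, not_le, ← hsp,
      pow_lt_pow_iff_left₀ hs0.le (vnorm_nonneg hA a) hp]
  have e2 : {a | t ≤ f a ^ p} = {a | f a < s}ᶜ := by
    ext a; simp only [Set.mem_ofPred_eq, mem_compl_iff, not_lt, ← hsp,
      pow_le_pow_iff_left₀ hs0.le (hf0 a) hp]
  rw [e1, e2, prob_compl_eq_one_sub (measurableSet_le (continuous_vnorm hA).measurable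
    measurable_const), prob_compl_eq_one_sub (measurableSet_lt hf measurable_const)]
  exact tsub_le_tsub_left (gam_le_cell hA hs0 (measurableSet_lt hf measurable_const)
    (hpack s hs0)) 1

/-- The unit cell has volume at least one. -/
lemma one_le_volume_cell (hA : Big A) : 1 ≤ volume {x | vnorm A x ≤ 1} := by
  set b := EuclideanSpace.basisFun (Fin d) ℝ
  set T : Eu d →ₗ[ℝ] Eu d := b.toBasis.constr ℝ A
  have hTb : ⇑T ∘ ⇑b = A := funext fun i => by
    show T (b i) = A i
    rw [← OrthonormalBasis.coe_toBasis]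
    exact b.toBasis.constr_basis ℝ A i
  have hdet : 1 ≤ |LinearMap.det T| := by
    have h := hA.one_le_det
    rw [← hTb, det_gram_map, gram_eq_one_iff_orthonormal.2 b.orthonormal, det_one, mul_one] at h
    nlinarith [sq_abs (LinearMap.det T), abs_nonneg (LinearMap.det T)]
  set Q : Set (Eu d) := WithLp.ofLp ⁻¹' univ.pi fun _ => Ico (0 : ℝ) 1
  have hQm : MeasurableSet Q :=
    (MeasurableSet.univ_pi fun _ => measurableSet_Ico).preimage (by fun_prop)
  have hQ : volume Q = 1 := by
    rw [(PiLp.volume_preserving_ofLp (Fin d)).measure_preimage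
      (MeasurableSet.univ_pi fun _ => measurableSet_Ico).nullMeasurableSet, volume_pi_pi]
    simp
  have hne : LinearMap.det T ≠ 0 := fun h => by rw [h, abs_zero] at hdet; linarith
  have hinj : Function.Injective T :=
    LinearMap.ker_eq_bot.1 (by
      by_contra h
      exact hne (LinearMap.det_eq_zero_iff_ker_ne_bot.2 h))
  have hTz : ∀ z, lvec A z = T (WithLp.toLp 2 fun i => (z i : ℝ)) := fun z => by
    simp [T, lvec, Module.Basis.constr_apply_fintype, b]
  calc (1 : ℝ≥0∞) ≤ ENNReal.ofReal |LinearMap.det T| * volume Q := by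
        rw [hQ, mul_one]; exact ENNReal.one_le_ofReal.2 hdet
    _ = volume (T '' Q) := (Measure.addHaar_image_linearMap _ T Q).symm
    _ ≤ _ := by
      refine measure_le_of_pack (hQm.image_of_continuousOn_injOn
        T.continuous_of_finiteDimensional.continuousOn hinj.injOn)
        (measurableSet_le (continuous_vnorm hA).measurable measurable_const) (lvec A)
        (fun x _ => by simpa using vnorm_cover hA one_pos x) (fun x z z' h h' => ?_)
        fun z S hS _ => le_of_eq ?_
      · obtain ⟨q, hq, hqe⟩ := h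
        obtain ⟨q', hq', hqe'⟩ := h'
        have he : T (q' - q) = lvec A (z' - z) := by rw [map_sub, hqe, hqe', lvec_sub]; abel
        rw [hTz] at he
        have h3 := hinj he
        funext i
        have h4 := congrArg (fun w : Eu d => w i) h3
        simp only [PiLp.sub_apply, Pi.sub_apply, Int.cast_sub] at h4
        have a1 := hq i (mem_univ i)
        have a2 := hq' i (mem_univ i)
        rw [mem_Ico] at a1 a2
        have : |((z i - z' i : ℤ) : ℝ)| < 1 := by
          push_cast; rw [abs_lt]; constructor <;> linarith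
        rw [← Int.cast_abs] at this
        have : |z i - z' i| < 1 := by exact_mod_cast this
        rw [abs_lt] at this
        omega
      · exact (measurePreserving_sub_right volume (lvec A z)).measure_preimage hS.nullMeasurableSet

/-- A bound on the moment bounds the number of short vectors. -/
lemma card_short_le (hA : Big A) {p : ℕ} {σ : ℝ} (hσ : 0 < σ) (hF : 3 * vF p A ≤ σ ^ p) (R : ℝ)
    (T : Finset (Fin d → ℤ)) (hT : ∀ z ∈ T, ‖lvec A z‖ ^ 2 ≤ R) :
    (T.card : ℝ) ≤ 3 / 2 * Real.exp (σ ^ 2 * R / 2) := by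
  set C := {x | vnorm A x < σ}
  have hCm : MeasurableSet C := measurableSet_lt (continuous_vnorm hA).measurable measurable_const
  have hmass : 2 / 3 ≤ (gam d).real C := by
    have h1 : σ ^ p * (gam d).real {x | σ ^ p ≤ vnorm A x ^ p} ≤ vF p A :=
      mul_meas_ge_le_integral_of_nonneg
        (Filter.Eventually.of_forall fun x => pow_nonneg (vnorm_nonneg hA x) p)
        (integrable_vnorm_pow hA p) _
    have h2 : (gam d).real Cᶜ ≤ (gam d).real {x | σ ^ p ≤ vnorm A x ^ p} :=
      measureReal_mono fun x hx => pow_le_pow_left₀ hσ.le (not_lt.1 hx) p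
    rw [probReal_compl_eq_one_sub hCm] at h2
    have h3 : (gam d).real {x | σ ^ p ≤ vnorm A x ^ p} ≤ 1 / 3 := by
      have hp : 0 < σ ^ p := pow_pos hσ p
      nlinarith
    linarith
  set S := fun z : Fin d → ℤ => (fun x => x - σ • lvec A z) ⁻¹' C
  have hdisj : (T : Set (Fin d → ℤ)).PairwiseDisjoint S := fun z _ w _ hzw =>
    Set.disjoint_left.2 fun x hx hy => hzw (by
      have e : x - σ • lvec A w + σ • lvec A (w - z) = x - σ • lvec A z := by
        rw [lvec_sub, smul_sub]; abel
      have := vnorm_pack hA (x := x - σ • lvec A w) (z := w - z) hy (by rw [e]; exact hx)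
      exact (sub_eq_zero.1 this).symm)
  have hsum : ∑ z ∈ T, (gam d).real (S z) ≤ 1 := by
    rw [← measureReal_biUnion_finset hdisj fun z _ => hCm.preimage (by fun_prop)]
    exact measureReal_le_one
  have hge : ∀ z ∈ T, Real.exp (-(σ ^ 2 * R / 2)) * (2 / 3) ≤ (gam d).real (S z) := fun z hz => by
    have h := gam_translate_ge hCm (fun x => by simp [C, vnorm_neg hA]) (σ • lvec A z)
    have h' : Real.exp (-‖σ • lvec A z‖ ^ 2 / 2) * (gam d).real C ≤ (gam d).real (S z) := by
      have := ENNReal.toReal_mono (measure_ne_top _ _) h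
      rwa [ENNReal.toReal_mul, ENNReal.toReal_ofReal (Real.exp_nonneg _)] at this
    refine le_trans (mul_le_mul ?_ hmass (by norm_num) (Real.exp_nonneg _)) h'
    refine Real.exp_le_exp.2 ?_
    rw [norm_smul, mul_pow, Real.norm_eq_abs, sq_abs]
    nlinarith [mul_le_mul_of_nonneg_left (hT z hz) (sq_nonneg σ)]
  have h := (Finset.sum_le_sum hge).trans hsum
  rw [Finset.sum_const, nsmul_eq_mul, Real.exp_neg] at h
  have he : 0 < Real.exp (σ ^ 2 * R / 2) := Real.exp_pos _
  field_simp at h
  linarith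

end Vale.Agent.P160R.RM
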